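import Crest.Agent.N334.Soft.Fin
import Crest.Agent.N334.End.Spec

-- ▼ part N334/Soft/Main
section

/-!
# Row 334 (helper52): finite-volume tightness implies the statement of S0519
-/

set_option autoImplicit false

open Finset MeasureTheory Filter Topology
open scoped ENNReal InnerProductSpace

namespace Crest.Agent.N334.Soft

open Crest.MathPhysics.Anderson Crest.Agent.N336.Q

variable {d : ℕ}

lemma inner_translate (a : Fin d → ℤ) (u w : Ell2 d) :
    ⟪translate d a u, w⟫_ℂ = ⟪u, translate d (-a) w⟫_ℂ := by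
  rw [lp.inner_eq_tsum, lp.inner_eq_tsum, ← (Equiv.addRight a).tsum_eq
    fun x => ⟪u x, translate d (-a) w x⟫_ℂ]
  simp [translate_apply]

lemma latticeOp_symm (t : ℝ) (v : lp (fun _ : Fin d → ℤ => ℝ) ⊤) (u w : Ell2 d) :
    ⟪latticeOp d t v u, w⟫_ℂ = ⟪u, latticeOp d t v w⟫_ℂ := by
  have h2 : ⟪multiply d v u, w⟫_ℂ = ⟪u, multiply d v w⟫_ℂ := by
    rw [lp.inner_eq_tsum, lp.inner_eq_tsum]
    refine tsum_congr fun x => ?_
    simp only [multiply_apply, RCLike.inner_apply, map_mul, Complex.conj_ofReal]; ring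
  simp only [latticeOp, _root_.add_apply, _root_.smul_apply, _root_.sum_apply, inner_add_left,
    inner_add_right, inner_smul_left, inner_smul_right, sum_inner, inner_sum, inner_translate, h2, neg_neg,
    Complex.conj_ofReal]
  congr 2
  exact sum_congr rfl fun j _ => add_comm _ _


/-- distance to the part supported on `B` -/
noncomputable def out (B : Finset (Fin d → ℤ)) (u : Ell2 d) : ℝ := ‖u - fs B u‖

/-- the ball of radius `R` -/
noncomputable def box (R : ℕ) : Finset (Fin 2 → ℤ) := Fintype.piFinset fun _ => Icc (-R : ℤ) R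

lemma FinVol.tail_ext {n : ℕ} (F : FinVol n) (R : ℕ) (u : Vec F.ι) :
    out (box R) (F.ext u) = tl (F.far R) u := by
  have h1 : ∀ y, F.e y ∈ box R ↔ y ∉ F.far R := fun y => by simp [box, FinVol.far, abs_le]
  have h2 : ∀ y, F.ext u (F.e y) = u y := fun y => by simp [F.ext_apply, F.e.injective.eq_iff]
  rw [out, ← sq_eq_sq₀ (norm_nonneg _) (tl_nonneg _ _), tl_sq, norm_sq_of_supp _ ((F.far R).map F.e),
    sum_map]
  · refine sum_congr rfl fun y hy => ?_
    rw [lp.coeFn_sub, Pi.sub_apply, fs_apply, if_neg (by simp [h1, hy]), sub_zero, h2]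
  · intro z hz
    rw [lp.coeFn_sub, Pi.sub_apply, fs_apply]
    split_ifs with hb
    · exact sub_self _
    · rw [sub_zero, F.ext_apply]
      refine sum_eq_zero fun y _ => if_neg ?_
      rintro rfl
      exact hz (mem_map_of_mem _ (by simpa [h1] using hb))


variable {h : ℝ}

lemma norm_H_le (hh : 0 < h) (ω : (Fin 2 → ℤ) → unitInterval) :
    ‖latticeOp 2 1 (h • centredPotentialBdd ω)‖ ≤ 4 + h :=
  (norm_latticeOp_le _ _).trans (by have := norm_pot_le hh.le ω; norm_num; linarith)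






theorem s0519_of_basis (hh : 0 < h) (hb : ∀ᵐ ω ∂(siteMeasure (Fin 2 → ℤ)),
    ∃ (ι : Type) (b : HilbertBasis ι ℂ (Ell2 2)), ∀ i, ∃ E : ℝ,
      latticeOp 2 1 (h • centredPotentialBdd ω) (b i) = (E : ℂ) • b i) :
    ∀ᵐ ω ∂(siteMeasure (Fin 2 → ℤ)),
      (∃ (ι : Type) (b : HilbertBasis ι ℂ (lp (fun _ : Fin 2 → ℤ => ℂ) 2)),
        ∀ i, ∃ E : ℝ,
          applyOp 2 1 (fun x => h * centredPotential ω x) (b i) = (E : ℂ) • ⇑(b i)) ∧
      closure {E : ℝ | ∃ u : lp (fun _ : Fin 2 → ℤ => ℂ) 2, u ≠ 0 ∧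
          applyOp 2 1 (fun x => h * centredPotential ω x) u = (E : ℂ) • ⇑u} =
        Set.Icc (-4 - h) (4 + h) := by
  filter_upwards [hb, ae_weyl (d := 2) one_le_two 1 hh] with ω ⟨ι, b, hb'⟩ h2
  set H := latticeOp 2 1 (h • centredPotentialBdd ω) with hH
  have h3 : ∀ (u : Ell2 2) (E : ℝ), applyOp 2 1 (fun x => h * centredPotential ω x) u =
      (E : ℂ) • ⇑u ↔ H u = (E : ℂ) • u := fun u E => by
    rw [← pot_apply, ← latticeOp_apply, ← lp.coeFn_smul]
    exact ⟨lp.ext, congrArg _⟩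
  simp only [h3]
  refine ⟨⟨ι, b, hb'⟩, (closure_minimal ?_ isClosed_Icc).antisymm fun E hE => ?_⟩
  · rintro E ⟨u, hu, hE⟩
    have h4 := (H.le_opNorm u).trans (mul_le_mul_of_nonneg_right (norm_H_le hh ω) (norm_nonneg u))
    rw [hE, norm_smul, Complex.norm_real, Real.norm_eq_abs,
      mul_le_mul_iff_left₀ (norm_pos_iff.2 hu), abs_le] at h4
    exact ⟨by linarith [h4.1], h4.2⟩
  · refine Metric.mem_closure_iff.2 fun η hη => ?_
    obtain ⟨u, hu⟩ := h2 E (by rw [abs_le]; constructor <;> norm_num <;> linarith [hE.1, hE.2]) η hη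
    by_contra hc
    refine hu.not_ge ?_
    rw [← b.repr.norm_map u, ← b.repr.norm_map (H u - _), ← Real.norm_of_nonneg hη.le,
      ← Complex.norm_real, ← norm_smul]
    refine lp.norm_mono two_ne_zero fun i => ?_
    obtain ⟨μ, hμ⟩ := hb' i
    have h4 : η ≤ dist E μ := not_lt.1 fun h => hc ⟨μ, ⟨b i, b.orthonormal.ne_zero i, hμ⟩, h⟩
    rw [lp.coeFn_smul, Pi.smul_apply, b.repr_apply_apply, b.repr_apply_apply, inner_sub_right,
      ← latticeOp_symm, ← hH, hμ, inner_smul_left, inner_smul_right, ← sub_mul, norm_smul, norm_mul,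
      Complex.conj_ofReal, ← Complex.ofReal_sub, Complex.norm_real, Complex.norm_real,
      Real.norm_of_nonneg hη.le, norm_sub_rev]
    exact mul_le_mul_of_nonneg_right h4 (norm_nonneg _)


end Crest.Agent.N334.Soft
end

-- ▼ part N334/End/Min

/-!
# Row 334 (helper52): Green function on `ℤ^d`; Wegner and Minami estimates
-/

set_option autoImplicit false

open Filter Topology Complex MeasureTheory Function
open scoped InnerProductSpace ComplexConjugate ENNReal

namespace Crest.Agent.N334.End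

open Crest.MathPhysics.Anderson Crest.Agent.N334.Soft

variable {d : ℕ} {τ h a η : ℝ} {ω : (Fin d → ℤ) → unitInterval}

/-- the Hamiltonian -/
noncomputable abbrev Hm (τ h : ℝ) (ω : (Fin d → ℤ) → unitInterval) : Ell2 d →L[ℂ] Ell2 d :=
  latticeOp d τ (h • centredPotentialBdd ω)

/-- the delta function -/
noncomputable abbrev dl (x : Fin d → ℤ) : Ell2 d := lp.single 2 x 1

lemma Hm_sa : IsSelfAdjoint (Hm τ h ω) :=
  ContinuousLinearMap.isSelfAdjoint_iff_isSymmetric.2 (latticeOp_symm _ _)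

lemma Hm_sub (ω ω' : (Fin d → ℤ) → unitInterval) (u : Ell2 d) (x : Fin d → ℤ) :
    (Hm τ h ω' u - Hm τ h ω u) x = (2 * h * (ω' x - ω x) : ℝ) * u x := by
  simp only [lp.coeFn_sub, Pi.sub_apply, latticeOp_apply, applyOp, pot_apply, centredPotential]
  push_cast; ring

lemma cont_Hm (w : Ell2 d) : Continuous fun ω => Hm τ h ω w := by
  refine continuous_iff_continuousAt.2 fun ω => tendsto_iff_norm_sub_tendsto_zero.2 ?_
  have h1 := tendsto_tsum_of_dominated_convergence (𝓕 := 𝓝 ω) (g := fun _ => 0)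
    (f := fun ω' x => ‖(Hm τ h ω' w - Hm τ h ω w) x‖ ^ 2) (bound := fun x => (2 * h) ^ 2 * ‖w x‖ ^ 2)
    (Summable.mul_left _ (by simpa using (lp.memℓp w).summable (by norm_num))) (fun x => by
      simp only [Hm_sub]
      exact Continuous.tendsto' (by fun_prop) _ _ (by simp)) (Eventually.of_forall fun ω' x => by
      have := unitInterval.nonneg (ω x); have := unitInterval.le_one (ω x)
      have := unitInterval.nonneg (ω' x); have := unitInterval.le_one (ω' x)
      rw [Hm_sub, Real.norm_of_nonneg (by positivity), norm_mul, mul_pow, norm_real,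
        Real.norm_eq_abs, sq_abs, mul_pow]
      refine mul_le_mul_of_nonneg_right (mul_le_of_le_one_right (by positivity) ?_) (by positivity)
      nlinarith)
  have h2 := h1.sqrt
  simp only [tsum_zero, Real.sqrt_zero] at h2
  refine h2.congr fun ω' => ?_
  have := lp.norm_rpow_eq_tsum (p := 2) (by norm_num) (Hm τ h ω' w - Hm τ h ω w)
  simp only [ENNReal.toReal_ofNat, Real.rpow_ofNat] at this
  rw [← this, Real.sqrt_sq (norm_nonneg _)]

lemma cont_G (hη : 0 < η) (u : Ell2 d) :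
    Continuous fun p : ((Fin d → ℤ) → unitInterval) × ℝ => G (Hm τ h p.1) ⟨p.2, η⟩ u :=
  continuous_G (fun _ => Hm_sa) (fun w => (cont_Hm w).comp continuous_fst)
    (by simp only [mk_eq_add_mul_I]; fun_prop) hη.ne' (fun _ => rfl) u

lemma cont_P (hη : 0 < η) (u : Ell2 d) :
    Continuous fun p : ((Fin d → ℤ) → unitInterval) × ℝ => P (Hm τ h p.1) p.2 η u := by
  have h1 := (cont_G (τ := τ) (h := h) hη u).sub (continuous_G (η := -η)
    (z := fun p : ((Fin d → ℤ) → unitInterval) × ℝ => conj (⟨p.2, η⟩ : ℂ)) (fun _ => Hm_sa)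
    (fun w => (cont_Hm (τ := τ) (h := h) w).comp continuous_fst)
    (by simp only [mk_eq_add_mul_I]; fun_prop) (by simpa using hη.ne') (fun _ => rfl) u)
  refine (h1.const_smul (2 * I)⁻¹).congr fun p => ?_
  rw [Pi.smul_apply, Pi.sub_apply, ← P_eq_sub Hm_sa hη, inv_smul_smul₀ (by simp)]

/-- the Green function -/
noncomputable def g (τ h a η : ℝ) (ω : (Fin d → ℤ) → unitInterval) (y x : Fin d → ℤ) : ℂ :=
  G (Hm τ h ω) ⟨a, η⟩ (dl x) y

lemma inner_dl (x : Fin d → ℤ) (u : Ell2 d) : ⟪dl x, u⟫_ℂ = u x := by simp [lp.inner_single_left]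

lemma cont_g (hη : 0 < η) (y x : Fin d → ℤ) :
    Continuous fun p : ((Fin d → ℤ) → unitInterval) × ℝ => g τ h p.2 η p.1 y x := by
  simp only [g, ← inner_dl]
  exact continuous_const.inner (cont_G hη _)

lemma cont_g' (hη : 0 < η) (y x : Fin d → ℤ) : Continuous fun ω => g τ h a η ω y x :=
  Continuous.uncurry_right (f := fun ω a => g τ h a η ω y x) a (cont_g hη y x)

lemma G_conj (hη : 0 < η) (y x : Fin d → ℤ) :
    G (Hm τ h ω) (conj ⟨a, η⟩) (dl x) y = conj (g τ h a η ω y x) := by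
  rw [G_eq Hm_sa (by simpa using hη.ne') (w := star (G (Hm τ h ω) ⟨a, η⟩ (dl x)))]
  · rfl
  · ext w
    have := congrArg (fun u : Ell2 d => conj (u w)) (HG (H := Hm τ h ω) (z := ⟨a, η⟩) Hm_sa hη.ne' (dl x))
    simp only [lp.coeFn_sub, lp.coeFn_smul, Pi.sub_apply, Pi.smul_apply, latticeOp_apply, applyOp,
      smul_eq_mul, map_sub, map_add, map_mul, map_sum, conj_ofReal, lp.star_apply, star_def,
      lp.single_apply, Pi.single_apply] at this ⊢
    rw [this]; split_ifs <;> simp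

lemma g_symm (hη : 0 < η) (y x : Fin d → ℤ) : g τ h a η ω y x = g τ h a η ω x y := by
  have := inner_G (H := Hm τ h ω) (z := ⟨a, η⟩) Hm_sa hη.ne' (dl y) (dl x)
  rw [inner_dl, G_conj hη, ← inner_conj_symm, inner_dl] at this
  exact (star_injective this).symm

lemma P_apply (hη : 0 < η) (y x : Fin d → ℤ) :
    P (Hm τ h ω) a η (dl x) y = (g τ h a η ω y x).im := by
  have := congrArg (fun u : Ell2 d => u y) (P_eq_sub (H := Hm τ h ω) (a := a) Hm_sa hη (dl x))
  simp only [lp.coeFn_sub, lp.coeFn_smul, Pi.sub_apply, Pi.smul_apply, G_conj hη, smul_eq_mul] at this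
  refine mul_left_cancel₀ (mul_ne_zero two_ne_zero I_ne_zero) (this.trans ?_)
  rw [← g, sub_conj]; push_cast; ring

lemma qf_dl (hη : 0 < η) (x : Fin d → ℤ) :
    qf (Hm τ h ω) (dl x) (fun l => pk η (l - a)) = (g τ h a η ω x x).im := by
  rw [qf, ← P, inner_dl, P_apply hη, ofReal_re]

lemma im_g_pos (hη : 0 < η) (x : Fin d → ℤ) : 0 < (g τ h a η ω x x).im := by
  rw [← qf_dl hη, qf_pk Hm_sa hη]
  refine mul_pos hη (pow_pos (norm_pos_iff.2 fun h0 => ?_) 2)
  have := congrArg (fun u : Ell2 d => u x) (HG (H := Hm τ h ω) (z := ⟨a, η⟩) Hm_sa hη.ne' (dl x))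
  simp [h0] at this

lemma g_ne (hη : 0 < η) (x : Fin d → ℤ) : g τ h a η ω x x ≠ 0 := fun h0 => by
  simpa [h0] using im_g_pos (τ := τ) (h := h) (a := a) (ω := ω) hη x

lemma g_update (hη : 0 < η) (x : Fin d → ℤ) (t : unitInterval) (w y : Fin d → ℤ) :
    g τ h a η (update ω x t) w y = g τ h a η ω w y -
      (2 * h * (t - ω x) : ℝ) * g τ h a η (update ω x t) x y * g τ h a η ω w x := by
  have h1 : G (Hm τ h ω) ⟨a, η⟩ (dl y - ((2 * h * (t - ω x) : ℝ) * g τ h a η (update ω x t) x y) •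
      dl x) = G (Hm τ h (update ω x t)) ⟨a, η⟩ (dl y) := by
    refine G_eq Hm_sa hη.ne' ?_
    conv_rhs => lhs; rw [← HG (H := Hm τ h (update ω x t)) (z := ⟨a, η⟩) Hm_sa hη.ne' (dl y)]
    rw [sub_right_comm, sub_left_inj, eq_sub_iff_add_eq, ← eq_sub_iff_add_eq']
    ext v
    rw [Hm_sub, lp.coeFn_smul, Pi.smul_apply, lp.single_apply]
    by_cases hv : v = x
    · subst hv; simp [g]
    · simp [hv]
  rw [g, ← h1, map_sub, map_smul]; rfl

lemma g_update' (hη : 0 < η) (x : Fin d → ℤ) (t : unitInterval) :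
    1 + (2 * h * (t - ω x) : ℝ) * g τ h a η ω x x ≠ 0 ∧ ∀ y, g τ h a η (update ω x t) x y =
      g τ h a η ω x y / (1 + (2 * h * (t - ω x) : ℝ) * g τ h a η ω x x) := by
  have h1 : ∀ y, g τ h a η (update ω x t) x y * (1 + (2 * h * (t - ω x) : ℝ) * g τ h a η ω x x) =
      g τ h a η ω x y := fun y => by linear_combination g_update (τ := τ) (h := h) (a := a) (ω := ω) hη x t x y
  have h2 := right_ne_zero_of_mul ((h1 x).trans_ne (g_ne hη x))
  exact ⟨h2, fun y => eq_div_of_mul_eq h2 (h1 y)⟩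

lemma lint_im_le (hh : 0 < h) {c : ℂ} (hc : 0 ≤ c.im) (t₀ : ℝ) : ∫⁻ t : unitInterval,
    ENNReal.ofReal (c / (1 + (2 * h * (t - t₀) : ℝ) * c)).im ≤ ENNReal.ofReal (Real.pi / (2 * h)) := by
  have h1 : ∀ s : ℝ, (c / (1 + s * c)).im = c.im / normSq (1 + s * c) := fun s => by
    rw [div_im, ← sub_div]; congr 1; simp; ring
  simp only [h1]
  rcases hc.eq_or_lt with hc | hc
  · simp [← hc]
  have hn : 0 < normSq c := normSq_pos.2 fun h => by simp [h] at hc
  have hI : 0 < c.im / normSq c / (2 * h) := by positivity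
  have h2 : ∀ t : ℝ, c.im / normSq (1 + (2 * h * (t - t₀) : ℝ) * c) =
      (2 * h)⁻¹ * pk (c.im / normSq c / (2 * h)) (t₀ - c.re / normSq c / (2 * h) - t) := fun t => by
    have : normSq (1 + (2 * h * (t - t₀) : ℝ) * c) = normSq c * (2 * h) ^ 2 *
        ((t₀ - c.re / normSq c / (2 * h) - t) ^ 2 + (c.im / normSq c / (2 * h)) ^ 2) := by
      field_simp
      simp only [normSq_apply, add_re, one_re, re_ofReal_mul, add_im, one_im, im_ofReal_mul]
      ring
    rw [this, pk]; field_simp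
  simp only [h2]
  have h3 := (cont_pk' hI (t₀ - c.re / normSq c / (2 * h))).const_mul (2 * h)⁻¹
  refine (lintegral_subtype_comap measurableSet_Icc fun t => ENNReal.ofReal ((2 * h)⁻¹ *
    pk (c.im / normSq c / (2 * h)) (t₀ - c.re / normSq c / (2 * h) - t))).trans_le ?_
  rw [← ofReal_integral_eq_lintegral_ofReal h3.integrableOn_Icc (Eventually.of_forall fun t =>
    mul_nonneg (by positivity) (pk_nonneg hI.le _)), integral_Icc_eq_integral_Ioc,
    ← intervalIntegral.integral_of_le zero_le_one, intervalIntegral.integral_const_mul,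
    div_eq_inv_mul Real.pi]
  exact ENNReal.ofReal_le_ofReal (mul_le_mul_of_nonneg_left (int_pk_le hI _ _ _) (by positivity))

lemma lint_update_le (x : Fin d → ℤ) {f k : ((Fin d → ℤ) → unitInterval) → ℝ≥0∞} (hf : Measurable f)
    (H : ∀ ω, ∫⁻ t, f (update ω x t) ≤ k ω) :
    ∫⁻ ω, f ω ∂siteMeasure _ ≤ ∫⁻ ω, k ω ∂siteMeasure _ := by
  rw [← (measurePreserving_update x).lintegral_comp hf,
    lintegral_prod _ (hf.fun_comp (measurePreserving_update x).measurable).aemeasurable]
  exact lintegral_mono H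

/-- **Wegner** -/
theorem wegner (hh : 0 < h) (hη : 0 < η) (x : Fin d → ℤ) :
    ∫⁻ ω, ENNReal.ofReal (g τ h a η ω x x).im ∂siteMeasure _ ≤ ENNReal.ofReal (Real.pi / (2 * h)) := by
  refine (lint_update_le x (continuous_im.comp (cont_g' hη x x)).measurable.ennreal_ofReal
    (k := fun _ => ENNReal.ofReal (Real.pi / (2 * h))) fun ω => ?_).trans_eq (by simp)
  simp only [comp, (g_update' hη x _).2]
  exact lint_im_le hh (im_g_pos hη x).le _

/-- the determinant of `Im G` on two sites -/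
noncomputable def dt (τ h a η : ℝ) (ω : (Fin d → ℤ) → unitInterval) (y x : Fin d → ℤ) : ℝ :=
  (g τ h a η ω y y).im * (g τ h a η ω x x).im - (g τ h a η ω y x).im ^ 2

lemma dt_nonneg (hη : 0 < η) (y x : Fin d → ℤ) : 0 ≤ dt τ h a η ω y x := by
  have := norm_inner_P_sq (H := Hm τ h ω) (a := a) Hm_sa hη (dl y) (dl x)
  rw [inner_dl, P_apply hη, qf_dl hη, qf_dl hη, norm_real, Real.norm_eq_abs, sq_abs] at this
  exact sub_nonneg.2 this

lemma cont_dt (hη : 0 < η) (y x : Fin d → ℤ) : Continuous fun ω => dt τ h a η ω y x := by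
  have := fun y x : Fin d → ℤ => cont_g' (τ := τ) (h := h) (a := a) hη y x
  unfold dt; fun_prop

lemma det_le (c z ρ : ℂ) : z.im * (c + ρ ^ 2 * z).im - (ρ * z).im ^ 2 ≤ z.im * c.im := by
  simp only [sq, add_im, mul_im, mul_re]
  nlinarith [sq_nonneg (ρ.im * z.re), sq_nonneg (ρ.im * z.im)]

/-- **Minami** -/
theorem minami (hh : 0 < h) (hη : 0 < η) (y x : Fin d → ℤ) :
    ∫⁻ ω, ENNReal.ofReal (dt τ h a η ω y x) ∂siteMeasure _ ≤
      ENNReal.ofReal ((Real.pi / (2 * h)) ^ 2) := by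
  let c : ((Fin d → ℤ) → unitInterval) → ℂ := fun ω =>
    g τ h a η ω x x - g τ h a η ω y x ^ 2 / g τ h a η ω y y
  have hc : Continuous c := (cont_g' hη x x).sub (((cont_g' hη y x).pow 2).div (cont_g' hη y y)
    fun _ => g_ne hη y)
  have h1 : ∀ ω t, dt τ h a η (update ω y t) y x ≤
      (g τ h a η ω y y / (1 + (2 * h * (t - ω y) : ℝ) * g τ h a η ω y y)).im * (c ω).im := by
    intro ω t
    obtain ⟨h1, h2⟩ := g_update' (τ := τ) (h := h) (a := a) (ω := ω) hη y t
    have h3 := g_ne (τ := τ) (h := h) (a := a) (ω := ω) hη y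
    refine le_trans (le_of_eq ?_) (det_le _ _ (g τ h a η ω y x / g τ h a η ω y y))
    rw [dt, g_update hη y t x x, h2, h2, g_symm hη x y]
    congr 3
    · simp only [c]; field_simp; ring
    · field_simp
  have h2 : ∀ ω, 0 ≤ (c ω).im := fun ω => by
    have := (dt_nonneg hη y x).trans (h1 ω (ω y))
    rw [sub_self, mul_zero, ofReal_zero, zero_mul, add_zero, div_one] at this
    exact nonneg_of_mul_nonneg_right this (im_g_pos hη y) 
  have h3 : ∀ ω t, c (update ω x t) = c ω / (1 + (2 * h * (t - ω x) : ℝ) * c ω) := by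
    intro ω t
    obtain ⟨h1, h2⟩ := g_update' (τ := τ) (h := h) (a := a) (ω := ω) hη x t
    have h3 := g_ne (τ := τ) (h := h) (a := a) (ω := ω) hη y
    have h4 := g_ne (τ := τ) (h := h) (a := a) (ω := update ω x t) hη y
    have h5 : g τ h a η (update ω x t) y y = g τ h a η ω y y * (1 + (2 * h * (t - ω x) : ℝ) * c ω) /
        (1 + (2 * h * (t - ω x) : ℝ) * g τ h a η ω x x) := by
      rw [g_update hη x t y y, h2, g_symm hη x y]
      simp only [c]; field_simp; ring
    have h6 := right_ne_zero_of_mul (div_ne_zero_iff.1 (h5 ▸ h4)).1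
    have h7 : g τ h a η ω y x ^ 2 = g τ h a η ω y y * (g τ h a η ω x x - c ω) := by
      simp only [c]; field_simp; ring
    change g τ h a η (update ω x t) x x - g τ h a η (update ω x t) y x ^ 2 / _ = _
    rw [h5, g_symm hη y x, h2, h2, g_symm hη x y, div_pow, h7]
    generalize ((2 * h * (t - ω x) : ℝ) : ℂ) = s at h1 h6
    rw [mul_comm] at h1
    field_simp; ring
  have hm := (continuous_im.comp hc).measurable.ennreal_ofReal
  refine (lint_update_le y (cont_dt hη y x).measurable.ennreal_ofReal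
    (k := fun ω => ENNReal.ofReal (Real.pi / (2 * h)) * ENNReal.ofReal (c ω).im) fun ω => ?_).trans ?_
  · refine (lintegral_mono fun t => (ENNReal.ofReal_le_ofReal (h1 ω t)).trans_eq
      (ENNReal.ofReal_mul' (h2 ω))).trans ?_
    rw [lintegral_mul_const' _ _ ENNReal.ofReal_ne_top]
    exact mul_le_mul_left (lint_im_le hh (im_g_pos hη y).le _) _
  · rw [lintegral_const_mul' _ _ ENNReal.ofReal_ne_top, sq, ENNReal.ofReal_mul (by positivity)]
    refine mul_le_mul_right ((lint_update_le x hm (k := fun _ => ENNReal.ofReal (Real.pi / (2 * h)))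
      fun ω => ?_).trans_eq (by simp)) _
    simp only [comp, h3]
    exact lint_im_le hh (h2 ω) _

end Crest.Agent.N334.End
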