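import Crest.Agent.N334.Md.Par_Mg
import Mathlib
import Crest.Agent.N334.I.Geo
import Crest.Agent.N334.Main.Defs
import Crest.Agent.N334.I.C0
import Crest.Agent.N334.G.Det
import Crest.Agent.N334.Sw.Exp
import Crest.Agent.N334.Main.Adm
import Crest.Agent.N334.Sw.Iw
import Crest.Agent.N334.Sw.Sum
import Crest.Agent.N334.Sw.LocT
import Crest.Agent.N334.G.Gain
import Crest.Agent.N334.Soft.Fin
import Crest.Agent.N334.End.Min
import Crest.Agent.N334.End.Defs

-- ▼ part N334/Main/World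
section

/-!
# Row 334, S0519 (helper86): `WorldStmt`
-/

set_option autoImplicit false

namespace Crest.Agent.N334.Mn

theorem world : WorldStmt := Br.world_of fun h E₀ hh hE => by
  obtain ⟨δ, c, hδ, c1, H⟩ := Md.exists_par hh hE
  refine ⟨δ, c, hδ, c1, fun E r₁ r₂ h1 h2 h3 => ?_⟩
  obtain ⟨p₁, p₂, D, A, k, e1, e2, L₁, L₂, e3, e4, e5, e6, -, e7, e8, e9⟩ := H E r₁ r₂ h1 h2 h3
  have key : ∀ p, p = p₁ ∨ p = p₂ → Br.Num p c := fun p hp =>
    ⟨(e9 p hp).1, (e9 p hp).2.1, (e9 p hp).2.2.2.1, (e9 p hp).2.2.2.2⟩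
  exact ⟨p₁, p₂, D, A, k, e1, e2, L₁, L₂, e3, e4, e5, e6, e7, e8, key _ (Or.inl rfl),
    key _ (Or.inr rfl)⟩

end Crest.Agent.N334.Mn
end

-- ▼ part N334/I/CT
section

/-!
# Row 334, S0519 (helper21): Combes–Thomas estimate in flux form

`ψ` solves `(A + diag w) ψ = δ_b` with `A` real symmetric and `Im w ≤ 0`.  If the weight `φ` only
changes (by at most `lam`) across bonds whose ends are damped by at least `g`, then
`∑ₓ σ_b σ_x e^{2 φ x} |ψ x|² ≤ 2 e^{2 φ b}` where `σ = -Im w`.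
-/

set_option autoImplicit false

open Finset

namespace Crest.Agent.N334.I

variable {ι : Type*} [Fintype ι] [DecidableEq ι]

/-- weighted flux identity -/
theorem flux_identity (A : ι → ι → ℝ) (hA : ∀ x y, A x y = A y x) (w ψ : ι → ℂ) (b : ι)
    (hψ : ∀ x, ∑ y, (A x y : ℂ) * ψ y + w x * ψ x = if x = b then 1 else 0) (W : ι → ℝ) :
    ∑ x, W x * (-(w x).im) * ‖ψ x‖ ^ 2 =
      W b * (ψ b).im + (1 / 2) * ∑ x, ∑ y, (W x - W y) * A x y * (starRingEnd ℂ (ψ x) * ψ y).im := by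
  have h1 : ∀ x, W x * (∑ y, A x y * (starRingEnd ℂ (ψ x) * ψ y).im) +
      W x * (w x).im * ‖ψ x‖ ^ 2 = if x = b then -(W b * (ψ b).im) else 0 := by
    intro x
    have h := congrArg (fun t => (starRingEnd ℂ (ψ x) * t).im) (hψ x)
    simp only [mul_add, Finset.mul_sum, Complex.add_im, Complex.im_sum] at h
    have e1 : ∀ y, (starRingEnd ℂ (ψ x) * ((A x y : ℂ) * ψ y)).im =
        A x y * (starRingEnd ℂ (ψ x) * ψ y).im := by
      intro y
      rw [mul_left_comm, Complex.im_ofReal_mul]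
    have e2 : (starRingEnd ℂ (ψ x) * (w x * ψ x)).im = (w x).im * ‖ψ x‖ ^ 2 := by
      rw [mul_left_comm, Complex.conj_mul', ← Complex.ofReal_pow, Complex.im_mul_ofReal]
    simp only [e1, e2] at h
    rw [mul_assoc, ← mul_add, h]
    by_cases hx : x = b
    · subst hx; simp
    · simp [hx]
  have h2 := Finset.sum_congr rfl (fun x (_ : x ∈ (univ : Finset ι)) => h1 x)
  rw [Finset.sum_add_distrib, Finset.sum_ite_eq' univ b] at h2
  simp only [Finset.mem_univ, if_true] at h2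
  have h3 : ∑ x, ∑ y, (W x - W y) * A x y * (starRingEnd ℂ (ψ x) * ψ y).im =
      2 * ∑ x, W x * (∑ y, A x y * (starRingEnd ℂ (ψ x) * ψ y).im) := by
    have e : ∑ x, ∑ y, W y * A x y * (starRingEnd ℂ (ψ x) * ψ y).im =
        -∑ x, ∑ y, W x * A x y * (starRingEnd ℂ (ψ x) * ψ y).im := by
      rw [Finset.sum_comm, ← Finset.sum_neg_distrib]
      refine Finset.sum_congr rfl fun x _ => ?_
      rw [← Finset.sum_neg_distrib]
      refine Finset.sum_congr rfl fun y _ => ?_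
      rw [hA y x]
      simp only [Complex.mul_im, Complex.conj_re, Complex.conj_im]
      ring
    have e' : ∑ x, W x * (∑ y, A x y * (starRingEnd ℂ (ψ x) * ψ y).im) =
        ∑ x, ∑ y, W x * A x y * (starRingEnd ℂ (ψ x) * ψ y).im := by
      simp only [Finset.mul_sum, mul_assoc]
    simp only [sub_mul, Finset.sum_sub_distrib]
    rw [e, e']
    ring
  have h4 : ∑ x, W x * (-(w x).im) * ‖ψ x‖ ^ 2 = -∑ x, W x * (w x).im * ‖ψ x‖ ^ 2 := by
    rw [← Finset.sum_neg_distrib]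
    exact Finset.sum_congr rfl fun x _ => by ring
  rw [h3, h4]
  linarith

/-- Ward identity -/
theorem ward (A : ι → ι → ℝ) (hA : ∀ x y, A x y = A y x) (w ψ : ι → ℂ) (b : ι)
    (hψ : ∀ x, ∑ y, (A x y : ℂ) * ψ y + w x * ψ x = if x = b then 1 else 0) :
    ∑ x, (-(w x).im) * ‖ψ x‖ ^ 2 = (ψ b).im := by
  have := flux_identity A hA w ψ b hψ fun _ => 1
  simpa using this

/-- `σ_b |G(b,b)| ≤ 1` -/
theorem sig_mul_norm_le (A : ι → ι → ℝ) (hA : ∀ x y, A x y = A y x) (w ψ : ι → ℂ) (b : ι)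
    (hw : ∀ x, (w x).im ≤ 0)
    (hψ : ∀ x, ∑ y, (A x y : ℂ) * ψ y + w x * ψ x = if x = b then 1 else 0) :
    (-(w b).im) * ‖ψ b‖ ≤ 1 := by
  have h1 := ward A hA w ψ b hψ
  have h2 : (-(w b).im) * ‖ψ b‖ ^ 2 ≤ ∑ x, (-(w x).im) * ‖ψ x‖ ^ 2 :=
    Finset.single_le_sum (f := fun x => (-(w x).im) * ‖ψ x‖ ^ 2)
      (fun x _ => mul_nonneg (neg_nonneg.2 (hw x)) (sq_nonneg _)) (mem_univ b)
  have h3 : (ψ b).im ≤ ‖ψ b‖ := (le_abs_self _).trans (Complex.abs_im_le_norm _)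
  rcases (norm_nonneg (ψ b)).eq_or_lt with h | h
  · rw [← h]; simp
  · refine le_of_mul_le_mul_right ?_ h
    nlinarith

theorem abs_exp_sub_le {s t lam : ℝ} (h : |s - t| ≤ lam) :
    |Real.exp (2 * s) - Real.exp (2 * t)| ≤ 2 * Real.sinh lam * (Real.exp s * Real.exp t) := by
  have e : Real.exp (2 * s) - Real.exp (2 * t) =
      2 * Real.sinh (s - t) * (Real.exp s * Real.exp t) := by
    rw [Real.sinh_eq, ← Real.exp_add, mul_div_cancel₀ _ (two_ne_zero), sub_mul, ← Real.exp_add,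
      ← Real.exp_add]
    congr 2 <;> ring
  rw [e, abs_mul, abs_mul, abs_of_pos (mul_pos (Real.exp_pos s) (Real.exp_pos t)), abs_two,
    Real.abs_sinh]
  gcongr
  exact Real.sinh_le_sinh.2 h

theorem sinh_le_two_mul {x : ℝ} (h0 : 0 ≤ x) (h1 : x ≤ 1) : Real.sinh x ≤ 2 * x := by
  rw [Real.sinh_eq]
  have a := Real.abs_exp_sub_one_le (x := x) (by rw [abs_of_nonneg h0]; exact h1)
  have b := Real.add_one_le_exp (-x)
  rw [abs_of_nonneg h0] at a
  have := le_abs_self (Real.exp x - 1)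
  linarith

/-- **Combes–Thomas, flux form.** -/
theorem ct_flux (A : ι → ι → ℝ) (hA : ∀ x y, A x y = A y x) {D : ℝ} (hD : ∀ x, ∑ y, |A x y| ≤ D)
    (w ψ : ι → ℂ) (b : ι) (hw : ∀ x, (w x).im ≤ 0)
    (hψ : ∀ x, ∑ y, (A x y : ℂ) * ψ y + w x * ψ x = if x = b then 1 else 0)
    (φ : ι → ℝ) {lam g : ℝ} (hlam : 0 ≤ lam) (hg : 2 * D * Real.sinh lam ≤ g)
    (hφ : ∀ x y, A x y ≠ 0 → |φ x - φ y| ≤ lam)
    (hφ' : ∀ x y, A x y ≠ 0 → φ x ≠ φ y → g ≤ -(w x).im) :
    ∑ x, Real.exp (2 * φ x) * (-(w x).im) * ‖ψ x‖ ^ 2 ≤ 2 * Real.exp (2 * φ b) * (ψ b).im := by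
  have hsh : 0 ≤ Real.sinh lam := Real.sinh_nonneg_iff.2 hlam
  have hid := flux_identity A hA w ψ b hψ fun x => Real.exp (2 * φ x)
  set S := ∑ x, Real.exp (2 * φ x) * (-(w x).im) * ‖ψ x‖ ^ 2 with hS
  classical
  -- indicator of damped sites
  set m : ι → ℝ := fun x => if g ≤ -(w x).im then Real.exp (2 * φ x) * ‖ψ x‖ ^ 2 else 0 with hm
  have hm0 : ∀ x, 0 ≤ m x := fun x => by
    simp only [hm]; split_ifs <;> positivity
  have hterm : ∀ x y, (Real.exp (2 * φ x) - Real.exp (2 * φ y)) * A x y *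
      (starRingEnd ℂ (ψ x) * ψ y).im ≤ Real.sinh lam * (|A x y| * m x + |A y x| * m y) := by
    intro x y
    rw [hA y x]
    by_cases h0 : A x y = 0
    · simp [h0]
    by_cases h1 : φ x = φ y
    · rw [h1, sub_self, zero_mul, zero_mul]
      exact mul_nonneg hsh (add_nonneg (mul_nonneg (abs_nonneg _) (hm0 x))
        (mul_nonneg (abs_nonneg _) (hm0 y)))
    have gx := hφ' x y h0 h1
    have gy := hφ' y x (by rwa [hA y x]) (Ne.symm h1)
    simp only [hm, if_pos gx, if_pos gy]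
    have a1 := abs_exp_sub_le (hφ x y h0)
    have a2 : |(starRingEnd ℂ (ψ x) * ψ y).im| ≤ ‖ψ x‖ * ‖ψ y‖ := by
      refine (Complex.abs_im_le_norm _).trans ?_
      rw [norm_mul, Complex.norm_conj]
    refine (le_abs_self _).trans ?_
    rw [abs_mul, abs_mul]
    have a3 : Real.exp (2 * φ x) = Real.exp (φ x) ^ 2 := by rw [← Real.exp_nat_mul]; simp
    have a4 : Real.exp (2 * φ y) = Real.exp (φ y) ^ 2 := by rw [← Real.exp_nat_mul]; simp
    calc |Real.exp (2 * φ x) - Real.exp (2 * φ y)| * |A x y| *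
          |(starRingEnd ℂ (ψ x) * ψ y).im|
        ≤ 2 * Real.sinh lam * (Real.exp (φ x) * Real.exp (φ y)) * |A x y| * (‖ψ x‖ * ‖ψ y‖) := by
          gcongr
      _ = Real.sinh lam * |A x y| *
            (2 * (Real.exp (φ x) * ‖ψ x‖) * (Real.exp (φ y) * ‖ψ y‖)) := by ring
      _ ≤ Real.sinh lam * |A x y| *
            ((Real.exp (φ x) * ‖ψ x‖) ^ 2 + (Real.exp (φ y) * ‖ψ y‖) ^ 2) := by
          gcongr
          exact two_mul_le_add_sq _ _
      _ = _ := by rw [a3, a4]; ring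
  have hsum : ∑ x, ∑ y, (Real.exp (2 * φ x) - Real.exp (2 * φ y)) * A x y *
      (starRingEnd ℂ (ψ x) * ψ y).im ≤ Real.sinh lam * (2 * D * ∑ x, m x) := by
    refine (Finset.sum_le_sum fun x _ => Finset.sum_le_sum fun y _ => hterm x y).trans ?_
    simp only [← Finset.mul_sum]
    refine mul_le_mul_of_nonneg_left ?_ hsh
    simp only [Finset.sum_add_distrib]
    have e : ∑ x, ∑ y, |A x y| * m x ≤ D * ∑ x, m x := by
      rw [Finset.mul_sum]
      refine Finset.sum_le_sum fun x _ => ?_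
      rw [← Finset.sum_mul]
      exact mul_le_mul_of_nonneg_right (hD x) (hm0 x)
    have e' : ∑ x, ∑ y, |A y x| * m y = ∑ x, ∑ y, |A x y| * m x := Finset.sum_comm
    linarith
  have hgm : g * ∑ x, m x ≤ S := by
    rw [Finset.mul_sum]
    refine Finset.sum_le_sum fun x _ => ?_
    simp only [hm]
    split_ifs with h
    · have : 0 ≤ Real.exp (2 * φ x) * ‖ψ x‖ ^ 2 := by positivity
      nlinarith
    · rw [mul_zero]
      exact mul_nonneg (mul_nonneg (Real.exp_pos _).le (neg_nonneg.2 (hw x))) (sq_nonneg _)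
  have hM : 0 ≤ ∑ x, m x := Finset.sum_nonneg fun x _ => hm0 x
  have : Real.sinh lam * (2 * D * ∑ x, m x) ≤ S := by
    refine le_trans ?_ hgm
    nlinarith
  linarith

/-- port form: `∑ₓ σ_b σ_x e^{2 φ x} |ψ x|² ≤ 2 e^{2 φ b}` -/
theorem ct_port (A : ι → ι → ℝ) (hA : ∀ x y, A x y = A y x) {D : ℝ} (hD : ∀ x, ∑ y, |A x y| ≤ D)
    (w ψ : ι → ℂ) (b : ι) (hw : ∀ x, (w x).im ≤ 0)
    (hψ : ∀ x, ∑ y, (A x y : ℂ) * ψ y + w x * ψ x = if x = b then 1 else 0)
    (φ : ι → ℝ) {lam g : ℝ} (hlam : 0 ≤ lam) (hg : 2 * D * Real.sinh lam ≤ g)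
    (hφ : ∀ x y, A x y ≠ 0 → |φ x - φ y| ≤ lam)
    (hφ' : ∀ x y, A x y ≠ 0 → φ x ≠ φ y → g ≤ -(w x).im) :
    ∑ x, Real.exp (2 * φ x) * ((-(w b).im) * (-(w x).im) * ‖ψ x‖ ^ 2) ≤
      2 * Real.exp (2 * φ b) := by
  have h1 := ct_flux A hA hD w ψ b hw hψ φ hlam hg hφ hφ'
  have h2 := sig_mul_norm_le A hA w ψ b hw hψ
  have h3 : (ψ b).im ≤ ‖ψ b‖ := (le_abs_self _).trans (Complex.abs_im_le_norm _)
  have hb : 0 ≤ -(w b).im := neg_nonneg.2 (hw b)
  have e : ∑ x, Real.exp (2 * φ x) * ((-(w b).im) * (-(w x).im) * ‖ψ x‖ ^ 2) =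
      (-(w b).im) * ∑ x, Real.exp (2 * φ x) * (-(w x).im) * ‖ψ x‖ ^ 2 := by
    rw [Finset.mul_sum]
    exact Finset.sum_congr rfl fun x _ => by ring
  rw [e]
  have h4 : (-(w b).im) * (ψ b).im ≤ 1 := (mul_le_mul_of_nonneg_left h3 hb).trans h2
  have h5 := Real.exp_pos (2 * φ b)
  calc _ ≤ (-(w b).im) * (2 * Real.exp (2 * φ b) * (ψ b).im) := mul_le_mul_of_nonneg_left h1 hb
    _ = 2 * Real.exp (2 * φ b) * ((-(w b).im) * (ψ b).im) := by ring
    _ ≤ 2 * Real.exp (2 * φ b) * 1 := by gcongr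
    _ = _ := mul_one _

end Crest.Agent.N334.I
end

-- ▼ part N334/I/Cor
section

/-!
# Row 334, S0519 (helper21): Combes–Thomas along the corridors
-/

set_option autoImplicit false

open Finset

namespace Crest.Agent.N334.I

namespace Geo

variable (g : Geo)

/-- number of cells per direction -/
def m : ℕ := g.M / (4 * g.b)

theorem mul_m : 4 * g.b * g.m = g.M := Nat.mul_div_cancel' g.dvd₂

instance : NeZero g.m := ⟨fun h => NeZero.ne g.M (by rw [← g.mul_m, h, mul_zero])⟩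

/-- coarse graining; it only changes across a corridor -/
def co (x : Tor g.M) : Tor g.m := fun j => ((((x j).val + 1) / (4 * g.b) : ℕ) : ZMod g.m)

theorem co_add_single (x : Tor g.M) (j : Fin 2) : g.co (x + Pi.single j 1) = g.co x ∨
    (g.co (x + Pi.single j 1) = g.co x + Pi.single j 1 ∧ g.plain x ∧
      g.plain (x + Pi.single j 1)) := by
  have hb := g.eight_le_b
  have hM := g.three_le_M
  have : Fact (1 < g.M) := ⟨by omega⟩
  have hv : ((x + Pi.single j 1 : Tor g.M) j).val = ((x j).val + 1) % g.M := by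
    rw [Pi.add_apply, Pi.single_eq_same, ZMod.val_add, ZMod.val_one]
  have ext : ∀ u : ZMod g.m, g.co (x + Pi.single j 1) j = g.co x j + u →
      g.co (x + Pi.single j 1) = g.co x + Pi.single j u := fun u hu => by
    funext i
    rcases eq_or_ne i j with rfl | hi
    · simpa using hu
    · simp [co, hi]
  rcases (Nat.succ_le_of_lt (ZMod.val_lt (x j))).eq_or_lt with h | h
  · left
    have h' : (x j).val + 1 = g.M := h
    have := ext 0 (by
      simp only [co, hv, h', Nat.mod_self, zero_add, add_zero]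
      rw [Nat.div_eq_of_lt (by omega), Nat.cast_zero]
      exact (ZMod.natCast_self g.m).symm)
    simpa using this
  have h' : (x j).val + 1 < g.M := h
  rw [Nat.mod_eq_of_lt h'] at hv
  have hs := Nat.succ_div (a := (x j).val + 1) (b := 4 * g.b)
  by_cases hd : 4 * g.b ∣ (x j).val + 1 + 1
  · right
    obtain ⟨k, hk⟩ := hd
    obtain ⟨k, rfl⟩ : ∃ k', k = k' + 1 := ⟨k - 1, by
      rcases k with _ | k
      · omega
      · rfl⟩
    rw [mul_add, mul_one] at hk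
    refine ⟨ext 1 ?_, g.plain_of_corridor (j := j) ?_, g.plain_of_corridor (j := j) ?_⟩
    · simp only [co, hv, hs]
      rw [if_pos ⟨k + 1, by rw [mul_add, mul_one]; exact hk⟩]
      push_cast; rfl
    · rw [show (x j).val = 4 * g.b - 2 + 4 * g.b * k by omega, Nat.add_mul_mod_self_left,
        Nat.mod_eq_of_lt (by omega)]
      omega
    · rw [hv, show (x j).val + 1 = 4 * g.b - 1 + 4 * g.b * k by omega, Nat.add_mul_mod_self_left,
        Nat.mod_eq_of_lt (by omega)]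
      omega
  · left
    have := ext 0 (by simp only [co, hv, hs, if_neg hd, add_zero])
    simpa using this

theorem co_adj {x y : Tor g.M} (h : tadj x y ≠ 0) :
    d1 (g.co x) (g.co y) ≤ 1 ∧ (g.co x ≠ g.co y → g.plain x) := by
  obtain ⟨j, rfl | rfl⟩ := tadj_ne_zero h
  · rcases g.co_add_single x j with h | h
    · simp [h]
    · exact ⟨by rw [h.1, d1_comm]; exact d1_add_single_le _ _, fun _ => h.2.1⟩
  · have := g.co_add_single (x - Pi.single j 1) j
    rw [sub_add_cancel] at this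
    rcases this with h | h
    · simp [h]
    · exact ⟨by rw [h.1]; exact d1_add_single_le _ _, fun _ => h.2.2⟩

theorem d1_le_co (x y : Tor g.M) : d1 x y ≤ 4 * g.b * (d1 (g.co x) (g.co y) + 2) := by
  have hb := g.eight_le_b
  have key : ∀ j, (off y x j).natAbs ≤ 4 * g.b * (off (g.co y) (g.co x) j).natAbs + 4 * g.b := by
    intro j
    set k := off (g.co y) (g.co x) j with hk
    have h1 := Nat.div_add_mod ((x j).val + 1) (4 * g.b)
    have h2 := Nat.div_add_mod ((y j).val + 1) (4 * g.b)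
    have h3 := Nat.mod_lt ((x j).val + 1) (show 0 < 4 * g.b by omega)
    have h4 := Nat.mod_lt ((y j).val + 1) (show 0 < 4 * g.b by omega)
    set q := ((x j).val + 1) / (4 * g.b)
    set q' := ((y j).val + 1) / (4 * g.b)
    set r := ((x j).val + 1) % (4 * g.b)
    set r' := ((y j).val + 1) % (4 * g.b)
    have h5 : (((q : ℤ) - q' - k : ℤ) : ZMod g.m) = 0 := by
      have e : ((k : ℤ) : ZMod g.m) = (q : ZMod g.m) - (q' : ZMod g.m) := ZMod.coe_valMinAbs _
      rw [Int.cast_sub, Int.cast_sub, e, Int.cast_natCast, Int.cast_natCast, sub_self]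
    obtain ⟨n, hn⟩ := (ZMod.intCast_zmod_eq_zero_iff_dvd _ _).1 h5
    have h6 : ((x j).val : ℤ) = (y j).val + ((4 * g.b : ℕ) * k + (r - r')) + (g.M : ℤ) * n := by
      have e := g.mul_m
      zify at h1 h2 e
      push_cast
      linear_combination h2 - h1 + 4 * (g.b : ℤ) * hn + n * e
    have h7 : x j = y j + ((((4 * g.b : ℕ) : ℤ) * k + (r - r') : ℤ) : ZMod g.M) := by
      have := congrArg (Int.cast : ℤ → ZMod g.M) h6
      simpa using this
    refine (natAbs_off_le y x j h7).trans ((Int.natAbs_add_le _ _).trans ?_)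
    rw [Int.natAbs_mul, Int.natAbs_natCast]
    omega
  have h0 := key 0
  have h1 := key 1
  simp only [d1, n1_eq, mul_add]
  omega

/-- **Moments in the initial state.** -/
theorem moment_le (w ψ : Tor g.M → ℂ) (y : Tor g.M) (hw : ∀ x, (w x).im ≤ 0)
    (hψ : ∀ x, ∑ z, (tadj x z : ℂ) * ψ z + w x * ψ x = if x = y then 1 else 0)
    {s lam : ℝ} (h0 : 0 < lam) (h1 : lam ≤ 1) (hs : 16 * lam ≤ s)
    (hpl : ∀ x, g.plain x → s ≤ -(w x).im) (p : ℕ) :
    ∑ x, (d1 x y : ℝ) ^ p * ((-(w y).im) * (-(w x).im) * ‖ψ x‖ ^ 2) ≤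
      2 * (Real.exp 4 * p.factorial * (2 * g.b / lam) ^ p) := by
  have h := ct_port tadj tadj_symm sum_abs_tadj w ψ y hw hψ
    (fun x => lam * d1 (g.co x) (g.co y)) (lam := lam) (g := s) h0.le
    (by linarith [sinh_le_two_mul h0.le h1])
    (fun x z hxz => by
      have a1 := (g.co_adj hxz).1
      have a2 := d1_triangle (g.co x) (g.co z) (g.co y)
      have a3 := d1_triangle (g.co z) (g.co x) (g.co y)
      rw [d1_comm (g.co z) (g.co x)] at a3
      rw [← mul_sub, abs_mul, abs_of_pos h0]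
      refine mul_le_of_le_one_right h0.le (abs_le.2 ⟨?_, ?_⟩)
      · have : (d1 (g.co z) (g.co y) : ℝ) ≤ 1 + d1 (g.co x) (g.co y) := by
          exact_mod_cast (by omega : d1 (g.co z) (g.co y) ≤ 1 + d1 (g.co x) (g.co y))
        linarith
      · have : (d1 (g.co x) (g.co y) : ℝ) ≤ 1 + d1 (g.co z) (g.co y) := by
          exact_mod_cast (by omega : d1 (g.co x) (g.co y) ≤ 1 + d1 (g.co z) (g.co y))
        linarith)
    fun x z hxz hne => hpl x ((g.co_adj hxz).2 fun e => hne (by rw [e]))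
  simp only [d1_self, Nat.cast_zero, mul_zero, Real.exp_zero, mul_one] at h
  refine le_trans ?_ (le_of_le_of_eq (mul_le_mul_of_nonneg_left h
    (show 0 ≤ Real.exp 4 * p.factorial * (2 * g.b / lam) ^ p by positivity)) (mul_comm _ _))
  rw [Finset.mul_sum]
  refine Finset.sum_le_sum fun x _ => ?_
  rw [← mul_assoc (Real.exp 4 * p.factorial * (2 * g.b / lam) ^ p)]
  refine mul_le_mul_of_nonneg_right ?_
    (mul_nonneg (mul_nonneg (neg_nonneg.2 (hw y)) (neg_nonneg.2 (hw x))) (sq_nonneg _))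
  set n : ℝ := (d1 (g.co x) (g.co y) : ℝ) with hn
  have n0 : 0 ≤ n := Nat.cast_nonneg _
  have a1 : (d1 x y : ℝ) ≤ 2 * g.b / lam * (2 * lam * (n + 2)) := by
    have : (d1 x y : ℝ) ≤ 4 * g.b * (n + 2) := by rw [hn]; exact_mod_cast g.d1_le_co x y
    refine this.trans (le_of_eq ?_)
    field_simp; ring
  have a2 := Real.pow_div_factorial_le_exp (2 * lam * (n + 2)) (by positivity) p
  rw [div_le_iff₀ (by positivity)] at a2
  have a3 : Real.exp (2 * lam * (n + 2)) ≤ Real.exp 4 * Real.exp (2 * (lam * n)) := by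
    rw [← Real.exp_add]; exact Real.exp_le_exp.2 (by nlinarith)
  calc (d1 x y : ℝ) ^ p ≤ (2 * g.b / lam * (2 * lam * (n + 2))) ^ p := by gcongr
    _ = (2 * g.b / lam) ^ p * (2 * lam * (n + 2)) ^ p := mul_pow _ _ _
    _ ≤ (2 * g.b / lam) ^ p * (Real.exp 4 * Real.exp (2 * (lam * n)) * p.factorial) := by
        gcongr
        exact a2.trans (by gcongr)
    _ = _ := by ring

end Geo

end Crest.Agent.N334.I
end

-- ▼ part N334/Main/Init
section

/-!
# Row 334, S0519 (helper21): the initial state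
-/

set_option autoImplicit false

open MeasureTheory Finset

noncomputable section

namespace Crest.Agent.N334.Mn

open G I Sw

theorem En_Km (L : G.Lat) (E : ℝ) {η : ℝ} (hη : 0 < η) {γ : L.X → ℝ} (hγ : ∀ x, 0 ≤ γ x)
    (a : L.X → ℝ) (W : L.X → L.X → ℝ) :
    En (fun p q => W p.1 q.1) (L.Km E η γ a) =
      4 * ∑ y, ∑ x, W x y * ((η + γ y) * (η + γ x) * ‖L.Gr (L.wv E η γ a) x y‖ ^ 2) := by
  have hs := Det.str_nonneg L hη hγ
  have h1 : ∀ p : L.P, Gam (fun p q => W p.1 q.1) (L.Km E η γ a) p = L.str η γ p *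
      ∑ y, (η + γ y) * (4 * (W p.1 y * ‖L.Gr (L.wv E η γ a) p.1 y‖ ^ 2)) := fun p => by
    rw [← Det.sum_str L η γ fun y => 4 * (W p.1 y * ‖L.Gr (L.wv E η γ a) p.1 y‖ ^ 2), mul_sum]
    refine sum_congr rfl fun q _ => ?_
    simp only [cc, Lat.Km, norm_mul, mul_pow, Complex.norm_real, Real.norm_eq_abs, sq_abs,
      Complex.norm_I, Real.sq_sqrt (hs _), Complex.norm_ofNat]
    ring
  simp only [En, h1]
  rw [Det.sum_str L η γ fun x => ∑ y, (η + γ y) * (4 * (W x y * ‖L.Gr (L.wv E η γ a) x y‖ ^ 2)),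
    sum_comm, mul_sum]
  refine sum_congr rfl fun x _ => ?_
  rw [mul_sum, mul_sum]
  exact sum_congr rfl fun y _ => by ring

theorem Gr_col (L : G.Lat) (E : ℝ) {η : ℝ} (hη : 0 < η) {γ : L.X → ℝ} (hγ : ∀ x, 0 ≤ γ x)
    (a : L.X → ℝ) (y x : L.X) :
    ∑ z, (L.A x z : ℂ) * L.Gr (L.wv E η γ a) z y + L.wv E η γ a x * L.Gr (L.wv E η γ a) x y =
      if x = y then 1 else 0 := by
  have h := Matrix.mul_nonsing_inv _ (Det.green L E (γ := γ) a hη fun x => by linarith [hγ x]).1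
  have h1 := congrFun (congrFun h x) y
  rw [Matrix.add_mul, Matrix.add_apply, Matrix.diagonal_mul, Matrix.mul_apply, Matrix.one_apply] at h1
  exact h1

theorem rx_le (N : ℕ) (hN : 1 ≤ N) (x y : Tor (2 ^ N)) :
    (torus N hN).rx x y ≤ 40 * (d1 x y : ℝ) ^ 2 := by
  refine le_trans ?_ (mul_le_mul_of_nonneg_left (dsq_le x y) (by norm_num))
  change (4 : ℝ) ^ N * ∑ i, ‖tU N N i x - tU N N i y‖ ^ 2 ≤ _
  rw [dsq, mul_sum, mul_sum]
  exact sum_le_sum fun i _ => (chord_two_sided N i x y).2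

theorem le_rx (N : ℕ) (hN : 1 ≤ N) (x y : Tor (2 ^ N)) :
    16 * dsq x y ≤ (torus N hN).rx x y := by
  change _ ≤ (4 : ℝ) ^ N * ∑ i, ‖tU N N i x - tU N N i y‖ ^ 2
  rw [dsq, mul_sum, mul_sum]
  exact sum_le_sum fun i _ => (chord_two_sided N i x y).1

namespace Su

variable (S : Su)

/-- the constant of the moment bounds -/
def cm (h : ℝ) : ℝ := 2 * (Real.exp 4 * 24 * (2 / min 1 (h / 16)) ^ 4)

theorem one_le_cm {h : ℝ} (hh : 0 < h) : 1 ≤ cm h := by
  have h0 : 0 < min 1 (h / 16) := lt_min one_pos (by positivity)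
  have h1 : 1 ≤ 2 / min 1 (h / 16) := (one_le_div h0).2 ((min_le_left _ _).trans one_le_two)
  have h2 := one_le_pow₀ (n := 4) h1
  have h3 := Real.one_le_exp (show (0 : ℝ) ≤ 4 by norm_num)
  unfold cm
  nlinarith

theorem mom {γ : S.L.X → ℝ} (hγ : ∀ x, 0 ≤ γ x) (hpl : ∀ x, S.g.plain x → S.h ≤ γ x)
    (a : S.L.X → ℝ) (y : S.L.X) {p : ℕ} (hp : p ≤ 4) :
    ∑ x, (d1 (M := 2 ^ S.N) x y : ℝ) ^ p * ((S.η + γ y) * (S.η + γ x) *
      ‖S.L.Gr (S.L.wv S.E S.η γ a) x y‖ ^ 2) ≤ cm S.h * (S.b : ℝ) ^ 4 := by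
  have hh := S.hh
  have h0 : 0 < min 1 (S.h / 16) := lt_min one_pos (by positivity)
  have him : ∀ x, -(S.L.wv S.E S.η γ a x).im = S.η + γ x := fun x => by simp [Lat.wv]
  have h := S.g.moment_le (S.L.wv S.E S.η γ a) (fun x => S.L.Gr (S.L.wv S.E S.η γ a) x y) y
    (fun x => by linarith [him x, hγ x, S.η0]) (Gr_col S.L S.E S.η0 hγ a y) h0 (min_le_left _ _)
    (s := S.h) (by linarith [min_le_right 1 (S.h / 16)])
    (fun x hx => by linarith [him x, hpl x hx, S.η0]) p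
  refine le_trans (le_of_eq (sum_congr rfl fun x _ => ?_)) (h.trans ?_)
  · rw [← him x, ← him y]
  have hb : (1 : ℝ) ≤ S.b := by exact_mod_cast S.g.eight_le_b.trans' (by norm_num)
  have h1 : 1 ≤ 2 * (S.b : ℝ) / min 1 (S.h / 16) :=
    (one_le_div h0).2 ((min_le_left _ _).trans (by linarith))
  have h2 : (p.factorial : ℝ) ≤ 24 := by exact_mod_cast Nat.factorial_le hp
  calc _ ≤ 2 * (Real.exp 4 * 24 * (2 * (S.b : ℝ) / min 1 (S.h / 16)) ^ 4) := by gcongr
    _ = _ := by unfold cm; ring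

theorem ini_le {F : S.L.Mat → ℝ} {B : ℝ} (h0 : ∀ K, 0 ≤ F K)
    (hF : ∀ γ a : S.L.X → ℝ, (∀ x, 0 ≤ γ x) → (∀ x, S.g.plain x → S.h ≤ γ x) →
      F (S.L.Km S.E S.η γ a) ≤ B) : S.ini F ≤ B := by
  have p0 := isProb_lawC' S.hh S.η 0
  have p1 := law_prob S.a0 S.b0_pos
  have p2 : ∀ γ, IsProbabilityMeasure (S.port γ) := fun γ => by unfold port; infer_instance
  have p3 : ∀ x, IsProbabilityMeasure (S.mu (lawC S.h S.η 0) (S.port S.γ₁) (S.port S.γ₂) x) :=
    fun x => inferInstanceAs (IsProbabilityMeasure (S.g.mu _ _ _ (show Tor S.g.M from x)))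
  have p4 := S.lab.isProb_ens S.hh S.η (S.mu (lawC S.h S.η 0) (S.port S.γ₁) (S.port S.γ₂))
  have hae := S.lab.ae_ens S.hh S.η (S.mu (lawC S.h S.η 0) (S.port S.γ₁) (S.port S.γ₂))
    (p := fun x t => S.g.plain x → S.h ≤ ga S.η t) fun l x => by
      by_cases hx : S.g.plain x
      · have e : S.lab.law S.η (S.mu (lawC S.h S.η 0) (S.port S.γ₁) (S.port S.γ₂)) l x =
            lift (S.η + S.h) (dens (ud S.h)) :=
          (S.lab.law_of_act _ _ (Geo.act_plain S.hh S.B₁ S.B₂ l hx)).trans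
            ((Geo.mu_plain _ _ _ hx).trans (lawC_zero S.hh _))
        rw [e]
        filter_upwards [ae_lift_im (S.η + S.h) (dens (ud S.h))] with t ht _
        rw [show t = pt (S.η + S.h) t.re from Complex.ext (by simp) (by simpa using ht),
          ga_pt _ _ S.hh.le]
      · exact Filter.Eventually.of_forall fun t h => absurd h hx
  refine (integral_mono_of_nonneg (Filter.Eventually.of_forall fun w => h0 _) (integrable_const B)
    (hae.mono fun w hw => hF _ _ (fun x => ga_nonneg _ _) hw)).trans ?_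
  simp

end Su

theorem wF_le (L : G.Lat) (c : L.X) {R2 : ℝ} (hR : 1 ≤ R2) (p q : L.P) :
    L.wF c R2 p q ≤ 2 * L.rx p.1 q.1 *
      ((R2 * (1 + L.rx p.1 c / R2) ^ 2)⁻¹ + (R2 * (1 + L.rx q.1 c / R2) ^ 2)⁻¹) := by
  have h1 := div_nonneg (L.rx_nonneg p.1 c) (show 0 ≤ R2 by linarith)
  have h2 := div_nonneg (L.rx_nonneg q.1 c) (show 0 ≤ R2 by linarith)
  have h3 := L.rx_nonneg p.1 q.1
  rw [Lat.wF, L.rx_eq]
  generalize L.rx p.1 c / R2 = u at *
  generalize L.rx q.1 c / R2 = v at *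
  have e1 : 4 * (L.rx p.1 q.1 / R2) / ((1 + u) * (1 + v)) =
      2 * L.rx p.1 q.1 / R2 * (2 * (1 + u)⁻¹ * (1 + v)⁻¹) := by field_simp; ring
  have e2 : 2 * L.rx p.1 q.1 * ((R2 * (1 + u) ^ 2)⁻¹ + (R2 * (1 + v) ^ 2)⁻¹) =
      2 * L.rx p.1 q.1 / R2 * ((1 + u)⁻¹ ^ 2 + (1 + v)⁻¹ ^ 2) := by field_simp
  rw [e1, e2]
  exact mul_le_mul_of_nonneg_left (two_mul_le_add_sq _ _) (by positivity)

theorem init : InitStmt := by
  intro h hh
  have hc := Su.one_le_cm hh
  refine ⟨5120 * Su.cm h, by linarith, fun S hS => ?_⟩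
  subst hS
  have hb : (1 : ℝ) ≤ S.b := by exact_mod_cast S.g.eight_le_b.trans' (by norm_num)
  have hv : (0 : ℝ) ≤ S.vol := Nat.cast_nonneg _
  have hpos : ∀ {γ : S.L.X → ℝ}, (∀ x, 0 ≤ γ x) → ∀ (a : S.L.X → ℝ) (x y : S.L.X),
      0 ≤ (S.η + γ y) * (S.η + γ x) * ‖S.L.Gr (S.L.wv S.E S.η γ a) x y‖ ^ 2 := fun hγ a x y => by
    have := hγ x; have := hγ y; have := S.η0; positivity
  have key : ∀ (W : S.L.X → S.L.X → ℝ) (k : ℝ) (p : ℕ), 0 ≤ k → p ≤ 4 →
      (∀ x y, W x y ≤ k * (d1 (M := 2 ^ S.N) x y : ℝ) ^ p) → ∀ γ a : S.L.X → ℝ, (∀ x, 0 ≤ γ x) →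
      (∀ x, S.g.plain x → S.h ≤ γ x) → ∀ y, ∑ x, W x y * ((S.η + γ y) * (S.η + γ x) *
        ‖S.L.Gr (S.L.wv S.E S.η γ a) x y‖ ^ 2) ≤ k * (Su.cm S.h * (S.b : ℝ) ^ 4) := by
    intro W k p hk hp hW γ a hγ hpl y
    refine le_trans ?_ (mul_le_mul_of_nonneg_left (S.mom hγ hpl a y hp) hk)
    rw [mul_sum]
    refine sum_le_sum fun x _ => ?_
    rw [← mul_assoc k]
    exact mul_le_mul_of_nonneg_right (hW x y) (hpos hγ a x y)
  have hB : 0 ≤ Su.cm S.h * (S.b : ℝ) ^ 4 := by positivity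
  refine ⟨S.ini_le (En_nonneg (S.L.rho2_nonneg _)) fun γ a hγ hpl => ?_,
    fun m hm => S.ini_le (En_nonneg (S.L.s4_nonneg _)) fun γ a hγ hpl => ?_,
    fun c R2 lam p hR hl => S.ini_le (fun K => pow_nonneg (add_nonneg hl
      (En_nonneg (wF_nonneg S.L c (by linarith)) K)) p) fun γ a hγ hpl => ?_⟩
  · have h1 := sum_le_card_nsmul univ _ _ fun y _ =>
      key S.L.rx 40 2 (by norm_num) (by norm_num) (rx_le S.N S.hN) γ a hγ hpl y
    rw [nsmul_eq_mul, card_univ, ← Su.vol] at h1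
    refine (En_Km S.L S.E S.η0 hγ a S.L.rx).trans_le ?_
    nlinarith [mul_nonneg hv hB]
  · have h16 : (0 : ℝ) < 16 ^ m := by positivity
    have h1 := sum_le_card_nsmul univ _ _ fun y _ =>
      key (fun x y => S.L.s4 m (x, true) (y, true)) (100 / 16 ^ m) 4 (by positivity) le_rfl
        (fun x y => by
          refine (S.L.s4_le hm _ _).2.trans ?_
          have h2 := rx_le S.N S.hN x y
          have h3 := S.L.rx_nonneg x y
          calc _ ≤ (40 * (d1 (M := 2 ^ S.N) x y : ℝ) ^ 2 / 4 ^ (m + 1)) ^ 2 := by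
                rw [S.L.rx_eq]; gcongr
            _ = _ := by
                rw [show (16 : ℝ) ^ m = (4 ^ m) ^ 2 by rw [← pow_mul, mul_comm, pow_mul]; norm_num]
                field_simp; ring) γ a hγ hpl y
    rw [nsmul_eq_mul, card_univ, ← Su.vol] at h1
    refine (En_Km S.L S.E S.η0 hγ a fun x y => S.L.s4 m (x, true) (y, true)).trans_le ?_
    have h2 : (S.b : ℝ) ^ 4 ≤ (S.b : ℝ) ^ 6 := pow_le_pow_right₀ hb (by norm_num)
    calc _ ≤ 4 * (S.vol * (100 / 16 ^ m * (Su.cm S.h * (S.b : ℝ) ^ 4))) := by linarith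
      _ = 400 * Su.cm S.h * (S.b : ℝ) ^ 4 / 16 ^ m * S.vol := by ring
      _ ≤ _ := by gcongr; norm_num
  · refine pow_le_pow_left₀ (add_nonneg hl (En_nonneg (wF_nonneg S.L c (by linarith)) _))
      (add_le_add le_rfl ?_) p
    set mm : S.L.X → ℝ := fun x => (R2 * (1 + S.L.rx x c / R2) ^ 2)⁻¹ with hmm
    have m0 : ∀ x, 0 ≤ mm x := fun x => by simp only [hmm]; positivity
    have hK := S.L.port_Km S.E S.η0 hγ a
    have e1 : En (S.L.wF c R2) (S.L.Km S.E S.η γ a) ≤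
        En (fun p q => 4 * S.L.rx p.1 q.1 * mm q.1) (S.L.Km S.E S.η γ a) := by
      have e2 : ∑ p, ∑ q, cc (S.L.Km S.E S.η γ a) p q * (2 * S.L.rx p.1 q.1 * mm p.1) =
          ∑ p, ∑ q, cc (S.L.Km S.E S.η γ a) p q * (2 * S.L.rx p.1 q.1 * mm q.1) := by
        rw [sum_comm]
        exact sum_congr rfl fun p _ => sum_congr rfl fun q _ => by
          rw [hK.cc_symm q p, S.L.rx_symm q.1 p.1]
      calc _ ≤ ∑ p, ∑ q, (cc (S.L.Km S.E S.η γ a) p q * (2 * S.L.rx p.1 q.1 * mm p.1) +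
              cc (S.L.Km S.E S.η γ a) p q * (2 * S.L.rx p.1 q.1 * mm q.1)) :=
            sum_le_sum fun p _ => sum_le_sum fun q _ => by
              rw [← mul_add, ← mul_add]
              exact mul_le_mul_of_nonneg_left (wF_le S.L c hR p q) (cc_nonneg _ _ _)
        _ = _ := by
            simp only [sum_add_distrib, e2]
            simp only [← sum_add_distrib]
            exact sum_congr rfl fun p _ => sum_congr rfl fun q _ => by ring
    refine e1.trans ((En_Km S.L S.E S.η0 hγ a fun x y => 4 * S.L.rx x y * mm y).trans_le ?_)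
    have h1 : ∀ y, ∑ x, 4 * S.L.rx x y * mm y * ((S.η + γ y) * (S.η + γ x) *
        ‖S.L.Gr (S.L.wv S.E S.η γ a) x y‖ ^ 2) ≤ mm y * (160 * (Su.cm S.h * (S.b : ℝ) ^ 4)) := by
      intro y
      refine le_trans (le_of_eq ?_) (mul_le_mul_of_nonneg_left
        (key (fun x y => 4 * S.L.rx x y) 160 2 (by norm_num) (by norm_num)
          (fun x y => by linarith [rx_le S.N S.hN x y]) γ a hγ hpl y) (m0 y))
      rw [mul_sum]
      exact sum_congr rfl fun x _ => by ring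
    have h2 := sum_le_sum fun y (_ : y ∈ univ) => h1 y
    rw [← sum_mul] at h2
    have h3 : ∑ x, mm x ≤ 8 := Det.shell S.L c hR
    nlinarith [mul_le_mul_of_nonneg_right h3 hB]

end Crest.Agent.N334.Mn
end
end

-- ▼ part N334/Main/Ens
section

/-!
# Row 334, S0519 (helper49): the ensemble of the gain phase in the format of `G`
-/

set_option autoImplicit false

open MeasureTheory Finset

noncomputable section

namespace Crest.Agent.N334.Mn

open G I Sw

section stat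

variable {L : G.Lat} (st : Stat L)

/-- the laws of the complex values in a static ensemble -/
def cl (γ : L.X → ℝ) (x : L.X) : Measure ℂ := lift (st.η + γ x) (st.mu x)

instance (γ : L.X → ℝ) (x : L.X) : IsProbabilityMeasure (cl st γ x) := by
  unfold cl; infer_instance

theorem integral_cl (γ : L.X → ℝ) {H : (L.X → ℂ) → ℝ} (hH : Measurable H) :
    ∫ w, H w ∂Measure.pi (cl st γ) = st.Ia fun a => H fun x => pt (st.η + γ x) (a x) := by
  have hm : MeasurePreserving (fun (a : L.X → ℝ) x => pt (st.η + γ x) (a x))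
      (Measure.pi st.mu) (Measure.pi (cl st γ)) :=
    measurePreserving_pi st.mu (cl st γ) fun x => (measurable_pt _).measurePreserving _
  rw [← hm.map_eq, integral_map hm.measurable.aemeasurable hH.aestronglyMeasurable]
  rfl

theorem Kw_pt {γ : L.X → ℝ} (hγ : ∀ x, 0 ≤ γ x) (E η : ℝ) (a : L.X → ℝ) :
    Kw L E η (fun x => pt (η + γ x) (a x)) = L.Km E η γ a := by
  simp only [Kw, ga_pt η _ (hγ _), pt_re]

theorem Ig_eq {γ : L.X → ℝ} (hγ : ∀ x, 0 ≤ γ x) {F : L.Mat → ℝ} (hF : Nice F) :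
    st.Ig γ F = ∫ w, F (Kw L st.E st.η w) ∂Measure.pi (cl st γ) := by
  rw [integral_cl st γ (H := fun w => F (Kw L st.E st.η w)) (hF.meas.comp (measurable_Kw L _ _))]
  simp only [Kw_pt hγ]
  rfl

theorem Kr_eq {y : L.X} (hb : 0 ≤ st.b y) {F : L.Mat → ℝ} (hF : Nice F) :
    st.Ia (fun a => F (st.Kr a y)) = ∫ w, F (Kw L st.E st.η w) ∂Measure.pi
      (Function.update (cl st st.γ) y (Measure.dirac (pt (st.η + st.b y) (st.a0 y)))) := by
  have := isProb_update (cl st st.γ) y (Measure.dirac (pt (st.η + st.b y) (st.a0 y)))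
  rw [integral_pi_update _ _ _ ((bm_Kw st.E st.η_pos hF).integrable _)]
  simp only [integral_dirac]
  rw [integral_cl st st.γ (H := fun w => F (Kw L st.E st.η (Function.update w y _)))
    (hF.meas.comp ((measurable_Kw L _ _).comp measurable_update_left))]
  congr 1
  funext a
  have h0 : ∀ x, 0 ≤ Function.update st.γ y (st.b y) x := fun x => by
    rcases eq_or_ne x y with rfl | hx
    · rwa [Function.update_self]
    · rw [Function.update_of_ne hx]; exact st.γ_nonneg x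
  rw [Stat.Kr, Lat.Kref, ← Kw_pt h0]
  congr 2
  funext x
  rcases eq_or_ne x y with rfl | hx
  · simp only [Function.update_self]
  · simp only [Function.update_of_ne hx]

end stat

namespace Su

variable (S : Su)

open Classical in
/-- active centres of class 2 -/
def Y (l : S.L.X → Bool) : Finset S.L.X := univ.filter fun x => S.g.ctr₂ x ∧ S.lab.act l x

open Classical in
/-- centres of class 2 -/
def C₂ : Finset S.L.X := univ.filter fun x => S.g.ctr₂ x

theorem mem_C₂ {x : S.L.X} : x ∈ S.C₂ ↔ S.g.ctr₂ x := by simp [C₂]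

theorem mem_Y {l : S.L.X → Bool} {x : S.L.X} : x ∈ S.Y l ↔ S.g.ctr₂ x ∧ S.lab.act l x := by
  simp [Y]

theorem den_ctr₁ {l : S.L.X → Bool} {x : S.L.X} (hx : S.g.ctr₁ x) (ha : S.lab.act l x) :
    dens ((S.lab.site x).den (l x)) = law S.a0 S.b0 := by
  have h0 : S.lab.act l x ↔ _ := Geo.act_ctr₁ (g := S.g) S.hh S.B₁ S.B₂ l hx
  have h1 : l x = true := h0.1 ha x (self_mem_ball (M := 2 ^ S.N) _ _)
  have h2 : S.lab.site x = S.B₁ 0 := Geo.site_ctr₁ S.hh S.B₁ S.B₂ hx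
  rw [h1, h2, Site.den, if_pos rfl, S.wd₁]; rfl

theorem den_ctr₂ {l : S.L.X → Bool} {x : S.L.X} (hx : S.g.ctr₂ x) (ha : S.lab.act l x) :
    dens ((S.lab.site x).den (l x)) = law S.a0 S.b0 := by
  have h0 : S.lab.act l x ↔ _ := Geo.act_ctr₂ (g := S.g) S.hh S.B₁ S.B₂ l hx
  have h1 : l x = true := h0.1 ha x (self_mem_ball (M := 2 ^ S.N) _ _)
  have h2 : S.lab.site x = S.B₂ 0 := Geo.site_ctr₂ S.hh S.B₁ S.B₂ hx
  rw [h1, h2, Site.den, if_pos rfl, S.wd₂]; rfl

theorem den_plain (l : S.L.X → Bool) {x : S.L.X} (hx : S.g.plain x) :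
    (S.lab.site x).den (l x) = ud S.h := by
  have h2 : S.lab.site x = Site.triv S.hh :=
    Geo.site_other S.hh S.B₁ S.B₂ hx.not_blk₁ hx.not_blk₂
  rw [h2, Site.triv_den]

/-- the static ensemble of a label field -/
def stat (l : S.L.X → Bool) : Stat S.L where
  E := S.E
  η := S.η
  η_pos := S.η0
  η_le := S.η1
  Y := S.Y l
  mu x := dens ((S.lab.site x).den (l x))
  prob x := (S.lab.site x).isProb_den S.hh _
  a0 _ := S.a0
  b _ := S.b0
  γ x := if x ∈ S.Y l then S.γ₂ else 0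
  γ_nonneg x := by split_ifs; exacts [S.γ₂_pos.le, le_rfl]
  γ_le x := by split_ifs; exacts [S.γ₂_le.trans S.b0_le, zero_le_one]
  hY x hx := ⟨S.den_ctr₂ (S.mem_Y.1 hx).1 (S.mem_Y.1 hx).2, S.b0_pos, S.b0_le, by
    rw [if_pos hx]; exact S.γ₂_le⟩

/-- the ensemble of the gain phase -/
def ens : Ens S.L where
  Ω := S.L.X → Bool
  pr := S.lab.P
  pr_nonneg := S.lab.P_nonneg
  pr_sum := S.lab.sum_P
  S := S.stat

/-- active laws when the centre `x` of class 2 has strength `γ₂ * f x` -/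
def muf (f : S.L.X → ℝ) (x : S.L.X) : Measure ℂ :=
  S.mu S.unif (S.port 0) (S.port (S.γ₂ * f x)) x

variable {S}

theorem adm_muf {f : S.L.X → ℝ} (hf : ∀ x, 0 ≤ f x ∧ f x ≤ 1) (x : S.L.X) : S.Adm (S.muf f x) := by
  unfold muf mu Geo.mu
  split_ifs
  · exact S.adm_port le_rfl S.b0_pos.le
  · exact S.adm_port (mul_nonneg S.γ₂_pos.le (hf x).1)
      ((mul_le_of_le_one_right S.γ₂_pos.le (hf x).2).trans S.γ₂_le)
  · exact S.adm_unif

theorem muf_ctr₂ (f : S.L.X → ℝ) {x : S.L.X} (hx : S.g.ctr₂ x) :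
    S.muf f x = S.port (S.γ₂ * f x) := Geo.mu_ctr₂ _ _ _ hx

theorem law_muf (f : S.L.X → ℝ) (l : S.L.X → Bool) :
    S.lab.law S.η (S.muf f) l = cl (S.stat l) fun x => (S.stat l).γ x * f x := by
  funext x
  change _ = lift (S.η + (if x ∈ S.Y l then S.γ₂ else 0) * f x) (dens ((S.lab.site x).den (l x)))
  by_cases ha : S.lab.act l x
  · rw [Lab.law_of_act _ _ _ ha]
    rcases Geo.act_cases S.hh S.B₁ S.B₂ ha with h | h | h
    · rw [if_neg fun h' => h.not_ctr₂ (S.mem_Y.1 h').1, zero_mul, add_zero, S.den_plain l h]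
      exact Geo.mu_plain _ _ _ h
    · rw [if_neg fun h' => h.not_ctr₂ (S.mem_Y.1 h').1, zero_mul, S.den_ctr₁ h ha]
      exact Geo.mu_ctr₁ _ _ _ h
    · rw [if_pos (S.mem_Y.2 ⟨h, ha⟩), S.den_ctr₂ h ha]
      exact muf_ctr₂ f h
  · rw [Lab.law_of_not_act _ _ _ ha, if_neg fun h' => ha (S.mem_Y.1 h').2, zero_mul, add_zero]

theorem I_eq {μ : S.L.X → Measure ℂ} (hμ : ∀ x, IsProbabilityMeasure (μ x)) {F : S.L.Mat → ℝ}
    (hF : Nice F) : S.I μ F =
      ∑ l, S.lab.P l * ∫ w, F (Kw S.L S.E S.η w) ∂Measure.pi (S.lab.law S.η μ l) := by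
  have := S.lab.isProb_law S.hh S.η μ
  exact S.lab.integral_ens S.η μ fun l => (bm_Kw S.E S.η0 hF).integrable _

theorem sum_Ig {f : S.L.X → ℝ} (hf : ∀ x, 0 ≤ f x ∧ f x ≤ 1) {F : S.L.Mat → ℝ} (hF : Nice F) :
    ∑ l, S.lab.P l * (S.stat l).Ig (fun x => (S.stat l).γ x * f x) F = S.I (S.muf f) F := by
  rw [I_eq (fun x => (adm_muf hf x).prob) hF]
  refine sum_congr rfl fun l _ => ?_
  rw [Ig_eq _ (fun x => mul_nonneg ((S.stat l).γ_nonneg x) (hf x).1) hF, law_muf]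
  rfl

theorem final_eq : ∑ l, S.lab.P l * (S.stat l).Ig 0 (En S.L.r2) = Q0 S.N S.hN S.h S.E S.η := by
  have h1 := sum_Ig (S := S) (f := fun _ => 0) (fun _ => ⟨le_rfl, zero_le_one⟩) (nice_En S.L.r2)
  simp only [mul_zero] at h1
  have h2 : S.lab.ens S.η (S.muf fun _ => 0) = Measure.pi fun _ => lift S.η (dens (ud S.h)) :=
    S.lab.ens_final S.hh S.η _ fun l x hx => by
      have := congrFun (law_muf (S := S) (fun _ => 0) l) x
      rw [Lab.law_of_act _ _ _ hx] at this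
      rw [this, cl, mul_zero, add_zero]
      rfl
  rw [Q0, ← h2]
  exact h1

theorem fac_mem {n : ℕ} (j : Lv n) : 0 ≤ fac j ∧ fac j ≤ 1 := by
  cases j <;> simp [fac, inv_le_one_iff₀, one_le_pow₀]

theorem sum_I0 {n : ℕ} (lam : S.L.X → Lv n) {F : S.L.Mat → ℝ} (hF : Nice F) :
    ∑ l, S.lab.P l * ((S.stat l).lev lam).I0 F = S.I (S.muf fun x => fac (lam x)) F :=
  sum_Ig (fun x => fac_mem (lam x)) hF

theorem sum_IB {n : ℕ} (lam : S.L.X → Lv n) {W : S.L.Mat → ℝ} (hW : Nice W)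
    (hW0 : ∀ K, IsPort K → 0 ≤ W K) {w : S.L.P → S.L.P → ℝ} (hw : ∀ p q, 0 ≤ w p q) :
    ∑ l, S.lab.P l * ((S.stat l).lev lam).IB (S.Y l) W w ≤
      Bi S.lab S.E S.η (S.muf fun x => fac (lam x)) S.C₂ (fun _ => S.a0)
        (fun _ => S.b0) (fun x => S.γ₂ * fac (lam x)) W w := by
  have hμ := fun x => (adm_muf (S := S) (fun x => fac_mem (lam x)) x).prob
  have hN : ∀ y : S.L.X, Nice fun K => W K * Gam w K (y, true) := fun y => hW.mul (nice_Gam w _)
  have e : ∀ y, Iw S.lab S.E S.η (Function.update (S.muf fun x => fac (lam x)) y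
      (Measure.dirac (pt (S.η + S.b0) S.a0))) (fun K => W K * Gam w K (y, true)) = _ := fun y =>
    I_eq (isProb_update _ y _) (hN y)
  simp only [Bi, e, mul_sum]
  rw [sum_comm]
  refine sum_le_sum fun l _ => ?_
  set st := (S.stat l).lev lam with hst
  have h1 : st.IB (S.Y l) W w =
      ∑ y ∈ S.Y l, st.γ y / S.b0 * st.Ia fun a => W (st.Kr a y) * Gam w (st.Kr a y) (y, true) := by
    rw [Stat.IB, st.Ia_sum (S.Y l) fun y hy => st.bm_Kr
      (F := fun K => W K * (st.γ y / st.b y * Gam w K (y, true)))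
      (hW.mul ((Nice.const _).mul (nice_Gam w _))) hy]
    refine sum_congr rfl fun y _ => ?_
    rw [← st.Ia_mul]
    congr 1
    funext a
    change _ = st.γ y / st.b y * _
    ring
  rw [h1, mul_sum]
  refine le_trans (le_of_eq (sum_congr rfl fun y hy => ?_)) (sum_le_sum_of_subset_of_nonneg
    (s := S.Y l) (fun y hy => S.mem_C₂.2 (S.mem_Y.1 hy).1) fun y _ _ => ?_)
  · rw [Kr_eq st S.b0_pos.le (hN y), Lab.law_update_of_act _ _ _ (S.mem_Y.1 hy).2, law_muf,
      show st.γ y = S.γ₂ * fac (lam y) from congrArg (· * fac (lam y)) (if_pos hy), mul_left_comm]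
    rfl
  · exact mul_nonneg (div_nonneg (mul_nonneg S.γ₂_pos.le (fac_mem _).1) S.b0_pos.le)
      (mul_nonneg (S.lab.P_nonneg l) (integral_nonneg fun w' =>
        mul_nonneg (hW0 _ (port_Kw _ _ S.η0 _)) (Gam_nonneg hw _ _)))

/-- averages over site-independent levels -/
theorem ExS_eq {n : ℕ} (q : Lv n → ℝ) (Q : Stat S.L → ℝ) :
    S.ens.ExS (fun _ _ => q) Q = ∑ lam : S.L.X → Lv n, (∏ x, q (lam x)) *
      ∑ l, S.lab.P l * Q ((S.stat l).lev lam) := by
  simp only [Ens.ExS, Ens.Ex, mul_sum]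
  rw [sum_comm]
  exact sum_congr rfl fun lam _ => sum_congr rfl fun l _ => mul_left_comm _ _ _

theorem ExS_init {n : ℕ} {F : S.L.Mat → ℝ} (hF : Nice F) :
    S.ens.ExS (fun _ _ (j : Lv n) => if j = some 0 then (1 : ℝ) else 0) (fun st => st.I0 F) =
      S.mid F := by
  rw [ExS_eq, sum_eq_single (fun _ => some 0)]
  · simp only [if_true, prod_const_one, one_mul]
    rw [sum_I0 _ hF]
    simp only [fac, Fin.val_zero, pow_zero]
    unfold muf
    simp only [mul_one]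
    rfl
  · intro lam _ h
    obtain ⟨x, hx⟩ := Function.ne_iff.1 h
    rw [prod_eq_zero (mem_univ x) (if_neg hx), zero_mul]
  · simp

end Su

end Crest.Agent.N334.Mn
end
end

-- ▼ part N334/Main/Gain
section

/-!
# Row 334, S0519 (helper49): the gain theorem in the concrete model
-/

set_option autoImplicit false

open MeasureTheory Finset

noncomputable section

namespace Crest.Agent.N334.Mn

open G I Sw

namespace Su

variable {S : Su} {κ ε : ℝ} {n : ℕ}

theorem bpat_lev (H : S.BP S.g.ctr₂ S.γ₂ κ ε) (lam : S.L.X → Lv n) {W : S.L.Mat → ℝ}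
    (hW : Temp S.E S.η W κ) : ∀ y ∈ S.C₂, BPat S.lab S.E S.η (S.muf fun x => fac (lam x)) W y
      S.a0 S.b0 (S.γ₂ * fac (lam y)) ε ε (kx S.L S.D y) := fun y hy =>
  H _ (adm_muf fun x => fac_mem (lam x)) W hW y (S.mem_C₂.1 hy) _
    (mul_nonneg S.γ₂_pos.le (fac_mem _).1) (mul_le_of_le_one_right S.γ₂_pos.le (fac_mem _).2)

theorem update_muf (lam : S.L.X → Lv n) {y : S.L.X} (hy : y ∈ S.C₂) :
    Function.update (S.muf fun x => fac (lam x)) y
      (lift (S.η + S.γ₂ * fac (lam y)) (law S.a0 S.b0)) = S.muf fun x => fac (lam x) :=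
  Function.update_eq_self_iff.2 (muf_ctr₂ (fun x => fac (lam x)) (S.mem_C₂.1 hy)).symm

theorem ExS_le {q : Lv n → ℝ} (h0 : ∀ j, 0 ≤ q j) (h1 : ∑ j, q j = 1) {Q Q' : Stat S.L → ℝ}
    {r c : ℝ} (H : ∀ lam : S.L.X → Lv n, ∑ l, S.lab.P l * Q ((S.stat l).lev lam) ≤
      r * ∑ l, S.lab.P l * Q' ((S.stat l).lev lam) + c) :
    S.ens.ExS (fun _ _ => q) Q ≤ r * S.ens.ExS (fun _ _ => q) Q' + c := by
  have h2 : ∑ lam : S.L.X → Lv n, ∏ x, q (lam x) = 1 := by
    have := prod_univ_sum (fun _ : S.L.X => (univ : Finset (Lv n))) fun _ j => q j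
    rw [Fintype.piFinset_univ] at this
    rw [← this]
    exact prod_eq_one fun _ _ => h1
  rw [ExS_eq, ExS_eq, ← one_mul c, ← h2, mul_sum, sum_mul, ← sum_add_distrib]
  refine sum_le_sum fun lam _ => ?_
  rw [mul_left_comm, ← mul_add]
  exact mul_le_mul_of_nonneg_left (H lam) (prod_nonneg fun x _ => h0 _)

theorem bpq (H : S.BP S.g.ctr₂ S.γ₂ κ ε) (hκ : 0 ≤ κ) (hε : 0 ≤ ε) {q : Lv n → ℝ}
    (h0 : ∀ j, 0 ≤ q j) (h1 : ∑ j, q j = 1) {ε' err : ℝ} (he : ε ≤ ε')
    (hA : ε * Ak (kx S.L S.D) S.L.r2 ≤ err * S.vol) : S.ens.BPq (fun _ _ => q) ε' err := by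
  refine ExS_le h0 h1 fun lam => ?_
  have hμ := fun x => (adm_muf (S := S) (fun x => fac_mem (lam x)) x).prob
  have hw : ∀ p q, 0 ≤ S.L.r2 p q := S.L.rho2_nonneg _
  have h2 := Sw.bi_of_BP S.hh S.η0 hμ (Nice.const 1) (fun _ _ => zero_le_one) hw
    (a₀ := fun _ => S.a0) (b := fun _ => S.b0) (γ := fun x => S.γ₂ * fac (lam x))
    (fun _ _ => S.b0_pos) hε (k := kx S.L S.D) (fun _ _ => (Real.exp_pos _).le)
    (bpat_lev H lam ⟨Nice.const 1, fun _ _ => zero_le_one, fun _ _ _ => by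
      simpa using Real.one_le_exp hκ⟩)
  have h3 := Sw.Sm.sum_Gam_le (lab := S.lab) (E := S.E) S.hh S.η0 hμ (Nice.const 1)
    (fun _ _ => zero_le_one) hw S.C₂ id (n := 1) fun z => by
      have : (S.C₂.filter fun o => id o = z).card ≤ 1 :=
        card_le_one.2 fun a ha b hb => (mem_filter.1 ha).2.trans (mem_filter.1 hb).2.symm
      exact_mod_cast this
  rw [sum_congr rfl fun y hy => by rw [update_muf lam hy], Iw_const _ _ S.hh, mul_one] at h2
  simp only [one_mul, id] at h2 h3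
  have h4 := Sw.Sm.Iw_nonneg (lab := S.lab) (E := S.E) (μ := S.muf fun x => fac (lam x)) S.η0
    (F := En S.L.r2) fun K _ => En_nonneg hw K
  rw [sum_I0 lam (nice_En _)]
  refine (sum_IB lam (Nice.const 1) (fun _ _ => zero_le_one) hw).trans (h2.trans ?_)
  exact add_le_add (mul_le_mul he h3 (sum_nonneg fun y _ => Sw.Sm.Iw_nonneg S.η0 fun K _ =>
    Gam_nonneg hw K _) (hε.trans he)) hA

theorem bpk (H : S.BP S.g.ctr₂ S.γ₂ κ ε) (hε : 0 ≤ ε) {q : Lv n → ℝ}
    (h0 : ∀ j, 0 ≤ q j) (h1 : ∑ j, q j = 1) {ε' lam : ℝ} {p : ℕ} (hp : 1 ≤ p) (hl : 0 < lam)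
    (he : 2 * ε ≤ ε') (hA : ∀ c R2, 1 ≤ R2 → Ak (kx S.L S.D) (S.L.wF c R2) ≤ lam)
    (hT : ∀ c R2, 1 ≤ R2 →
      Temp S.E S.η (fun K : S.L.Mat => (lam + En (S.L.wF c R2) K) ^ (p - 1)) κ) :
    S.ens.BPk (fun _ _ => q) ε' lam p := fun c R2 hR => by
  rw [← add_zero (ε' * _)]
  refine ExS_le h0 h1 fun lv => ?_
  have hμ := fun x => (adm_muf (S := S) (fun x => fac_mem (lv x)) x).prob
  have hw := wF_nonneg S.L c (zero_lt_one.trans_le hR)
  have h2 := Sw.bi_of_BP_psi S.hh S.η0 hμ hw hl hp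
    (a₀ := fun _ => S.a0) (b := fun _ => S.b0) (γ := fun x => S.γ₂ * fac (lv x))
    (fun _ _ => S.b0_pos) hε hε zero_le_one (k := kx S.L S.D) (fun _ _ => (Real.exp_pos _).le)
    (fun y hy F _ _ => by rw [update_muf lv hy, one_mul]) (bpat_lev H lv (hT c R2 hR))
  rw [sum_I0 lv (((Nice.const _).add (nice_En _)).pow p), add_zero]
  refine (sum_IB lv (hT c R2 hR).1 (hT c R2 hR).2.1 hw).trans (h2.trans ?_)
  refine mul_le_mul_of_nonneg_right ?_ (Sw.Sm.Iw_nonneg S.η0 fun K _ => by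
    have := En_nonneg hw K; positivity)
  have := mul_le_mul_of_nonneg_left ((div_le_one hl).2 (hA c R2 hR)) hε
  rw [mul_div_assoc]
  linarith

end Su

theorem gainM : GainStmt := by
  obtain ⟨τ0, Cl, C, p, hp, H⟩ := gain
  obtain ⟨C1, h1, H1⟩ := ak_r2
  obtain ⟨C2, h2, H2⟩ := ak_wF
  obtain ⟨C3, h3, H3⟩ := tempT
  set C' : ℝ := |Cl| + |C| + (C1 + C2) * 42 ^ 4 + 4 * C3 + 2 with hC'
  have a1 := abs_nonneg Cl
  have a2 := abs_nonneg C
  refine ⟨max τ0 1, C', p, by nlinarith, hp, fun τ hτ S κ ε₁ ε₂ ℓ₁ ℓ₂ lam hW hκ hε e1 e2 e3 e4 e5 e6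
    e7 e8 i1 i2 i3 => ?_⟩
  have τ1 : 1 ≤ τ := (le_max_right _ _).trans hτ
  have hb := S.eight_le_b
  have hb4 : 1 ≤ (S.b : ℝ) ^ 4 := one_le_pow₀ (by linarith)
  have hv := S.vol_pos
  have hD : 1 ≤ S.D := by unfold Su.D; linarith
  have hD4 : S.D ^ 4 = 42 ^ 4 * (S.b : ℝ) ^ 4 := by rw [Su.D, mul_pow]
  have hC0 : 2 ≤ C' := by nlinarith
  have hlam : C' ≤ lam := (le_mul_of_one_le_right (by linarith) hb4).trans e7
  have hp' : (1 : ℝ) ≤ p := by exact_mod_cast hp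
  have he : 2 * ε₂ ≤ 1 / τ ^ 64 := by
    have : 1 / τ ^ 288 ≤ 1 / τ ^ 64 :=
      one_div_le_one_div_of_le (by positivity) (pow_le_pow_right₀ τ1 (by norm_num))
    have : ε₂ * 2 ≤ ε₂ * (C' * (S.b : ℝ) ^ 4) := by gcongr; nlinarith
    linarith
  obtain ⟨fl, hfl⟩ := exists_flow (n := ⌈20 * τ ^ 32⌉₊) hlf
  obtain ⟨f0, hf⟩ := hfl (fun j => if j = some 0 then 1 else 0)
    (fun j => by split_ifs <;> norm_num) (by simp)
  rw [← Su.final_eq]
  refine (H τ ((le_max_left _ _).trans hτ) S.L S.ens _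
    (fun t _ _ => fl (fun j => if j = some 0 then 1 else 0) t) S.η lam (fun _ => rfl) e1 e2 e3
    (Nat.le_ceil _) (fun l x hx => if_neg hx)
    (fun l x => Ad.dens_le fun a => (hW.dens x _ a).trans (Real.exp_le_exp.2 e4))
    (fun _ _ => hf) (by nlinarith [le_abs_self Cl]) e5 (fun t ht _ => ⟨?_, ?_⟩) ?_ ?_ ?_).trans ?_
  · refine Su.bpq hW.bp₂ hκ hε (hf.nonneg t ht) (hf.sum t) (by linarith) ?_
    refine (mul_le_mul_of_nonneg_left (H1 S.L S.D hD) hε).trans ?_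
    rw [← mul_assoc]
    refine mul_le_mul_of_nonneg_right (le_trans ?_ e8) hv.le
    rw [hD4, ← mul_assoc C1]
    gcongr
    nlinarith
  · refine Su.bpk hW.bp₂ hε (hf.nonneg t ht) (hf.sum t) hp (by linarith) he
      (fun c R2 hR => (H2 S.L S.D hD c R2 hR).trans (le_trans ?_ e7)) fun c R2 hR => ?_
    · rw [hD4, ← mul_assoc]
      gcongr
      nlinarith
    · obtain ⟨F, hF, hF'⟩ := exists_stereo S.L c (zero_lt_one.trans_le hR)
      rw [← hF']
      refine H3 S.L S.E S.η S.η0 _ F 4 lam κ p hp (by linarith) (fun a b => ?_) (le_trans ?_ e6)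
      · have : wt F a b ≤ ∑ j, (2 * F j a ^ 2 + 2 * F j b ^ 2) :=
          sum_le_sum fun j _ => by nlinarith [sq_nonneg (F j a + F j b)]
        rw [sum_add_distrib, ← mul_sum, ← mul_sum, hF, hF] at this
        linarith
      · have : 4 * C3 ≤ C' := by nlinarith
        nlinarith
  · simp only [f0]
    rwa [Su.ExS_init (nice_En _)]
  · intro m hm
    simp only [f0]
    rw [Su.ExS_init (nice_En _)]
    exact i2 m hm
  · intro c R2 hR
    simp only [f0]
    rw [Su.ExS_init (((Nice.const _).add (nice_En _)).pow p)]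
    exact i3 c R2 hR
  · refine mul_le_mul_of_nonneg_right (div_le_div_of_nonneg_right ?_ (by positivity)) hv.le
    nlinarith [le_abs_self C]

end Crest.Agent.N334.Mn
end
end

-- ▼ part N334/Main/Link
section

/-!
# Row 334, S0519 (helper21): from the torus energy to the moment of the end game
-/

set_option autoImplicit false

open MeasureTheory Finset
open scoped ENNReal

noncomputable section

namespace Crest.Agent.N334.Mn

open G I Sw Crest.MathPhysics.Anderson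

namespace Lk

theorem map_unif {h : ℝ} (hh : 0 < h) :
    (volume : Measure unitInterval).map (fun u : unitInterval => h * (2 * (u : ℝ) - 1)) =
      dens (ud h) := by
  have hg : Measurable fun t : ℝ => h * (2 * t - 1) := by fun_prop
  have e1 : ud h = (Set.Icc (-h) h).indicator fun _ => 1 / (2 * h) := by
    funext a
    simp only [ud, Set.indicator, Set.mem_Icc, abs_le]
  have e2 : (volume : Measure ℝ).map (fun t : ℝ => h * (2 * t - 1)) =
      ENNReal.ofReal (1 / (2 * h)) • volume := by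
    have : (fun t : ℝ => h * (2 * t - 1)) = (fun t => t + -h) ∘ fun t => (2 * h) * t := by
      funext t; simp only [Function.comp]; ring
    rw [this, ← Measure.map_map (by fun_prop) (by fun_prop),
      Real.map_volume_mul_left (by positivity), Measure.map_smul, map_add_right_eq_self,
      abs_of_pos (by positivity), one_div]
  have e3 : (fun t : ℝ => h * (2 * t - 1)) ⁻¹' Set.Icc (-h) h = Set.Icc 0 1 := by
    ext t
    simp only [Set.mem_preimage, Set.mem_Icc]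
    constructor <;> rintro ⟨h1, h2⟩ <;> constructor <;> nlinarith
  rw [e1, dens_indicator, ← Measure.restrict_smul, ← e2, Measure.restrict_map hg measurableSet_Icc,
    e3, ← unitInterval.measurePreserving_coe.map_eq, Measure.map_map hg measurable_subtype_coe]
  rfl

/-- the configuration read off from a realisation -/
def cfg {V : Type} (h η : ℝ) (e : V → Fin 2 → ℤ) (ω : (Fin 2 → ℤ) → unitInterval) (x : V) : ℂ :=
  pt η (h * centredPotential ω (e x))

theorem mp_cfg {V : Type} [Fintype V] {h : ℝ} (hh : 0 < h) (η : ℝ) {e : V → Fin 2 → ℤ}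
    (he : Function.Injective e) : MeasurePreserving (cfg h η e) (siteMeasure (Fin 2 → ℤ))
      (Measure.pi fun _ => lift η (dens (ud h))) := by
  have := isProb_unif hh
  have hf : Measurable fun u : unitInterval => pt η (h * (2 * (u : ℝ) - 1)) := by fun_prop
  have hm : Measurable (cfg h η e) :=
    measurable_pi_lambda _ fun x => hf.comp (measurable_pi_apply (e x))
  refine ⟨hm, (Measure.pi_eq fun s hs => ?_).symm⟩
  rw [Measure.map_apply hm (MeasurableSet.univ_pi hs)]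
  set t : (Fin 2 → ℤ) → Set unitInterval := fun i =>
    ⋂ x, ⋂ _ : e x = i, (fun u : unitInterval => pt η (h * (2 * (u : ℝ) - 1))) ⁻¹' s x with ht
  have h1 : cfg h η e ⁻¹' Set.pi Set.univ s = Set.pi (univ.map ⟨e, he⟩ : Finset _) t := by
    ext ω
    simp only [ht, Set.mem_preimage, Set.mem_pi, Set.mem_univ, true_imp_iff, mem_coe, mem_map,
      mem_univ, true_and, Function.Embedding.coeFn_mk, Set.mem_iInter]
    exact ⟨fun H i _ x hx => hx ▸ H x, fun H x => H (e x) ⟨x, rfl⟩ x rfl⟩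
  rw [h1, siteMeasure, Measure.infinitePi_pi _ fun i _ =>
    MeasurableSet.iInter fun x => MeasurableSet.iInter fun _ => hf (hs x), prod_map]
  refine prod_congr rfl fun x _ => ?_
  have h2 : t (e x) = (fun u : unitInterval => pt η (h * (2 * (u : ℝ) - 1))) ⁻¹' s x := by
    ext u
    simp only [ht, Set.mem_iInter]
    exact ⟨fun H => H x rfl, fun H y hy => he hy ▸ H⟩
  change volume (t (e x)) = _
  rw [h2, ← Measure.map_apply hf (hs x), lift, ← map_unif hh,
    Measure.map_map (measurable_pt η) (by fun_prop)]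
  rfl

open scoped Matrix.Norms.L2Operator in
theorem norm_le_of_bd {ι : Type} [Fintype ι] [DecidableEq ι] {A : Matrix ι ι ℂ} {C : ℝ}
    (hC : 0 ≤ C) (h : AC.Bd A C) : ‖A‖ ≤ C := by
  rw [Matrix.l2_opNorm_def]
  refine ContinuousLinearMap.opNorm_le_bound _ hC fun x => ?_
  rw [EuclideanSpace.norm_eq, EuclideanSpace.norm_eq]
  exact h.sqrt hC x.ofLp

/-- the torus as a finite volume -/
def fv (n N : ℕ) (hN : 1 ≤ N) (hn : 2 * (n + 1) < 2 ^ N) : Soft.FinVol n where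
  ι := Tor (2 ^ N)
  e := ⟨off 0, off_injective 0⟩
  A := Matrix.of tadj
  symm := Matrix.IsSymm.ext fun x y => tadj_symm y x
  norm_le := norm_le_of_bd (by norm_num) (by
    have := Det.schur (torus N hN) (M := (torus N hN).A.map Complex.ofReal) zero_le_one
      fun x y => by simp
    rw [mul_one] at this
    exact this)
  o := 0
  e_o := off_self 0
  cover x hx := ⟨shift 0 x, off_shift 0 fun j => by have := abs_le.1 (hx j); omega⟩
  adj_eq x y hx := by
    have key : ∀ v : Fin 2 → ℤ, (∀ j, (v j).natAbs ≤ 1) →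
        (y = shift x v ↔ off 0 y = off 0 x + v) := fun v hv => by
      have e : shift x v = shift 0 (off 0 x + v) := by rw [shift_add, shift_off]
      refine ⟨fun H => ?_, fun H => by rw [e, ← H, shift_off]⟩
      rw [H, e]
      refine off_shift 0 fun j => ?_
      have h1 := abs_le.1 (show |off 0 x j| ≤ n from hx j)
      have h2 := hv j
      simp only [Pi.add_apply]
      omega
    have h1 : ∀ i j : Fin 2, ((Pi.single i 1 : Fin 2 → ℤ) j).natAbs ≤ 1 := fun i j =>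
      (natAbs_le_n1 _ j).trans (by rw [n1_single]; rfl)
    change tadj x y = Soft.adj (off 0 x) (off 0 y)
    unfold tadj Soft.adj
    refine sum_congr rfl fun i _ => ?_
    rw [← shift_single, ← shift_neg_single]
    congr 1
    · exact if_congr (key _ (h1 i)) rfl rfl
    · exact if_congr ((key _ fun j => by simpa using h1 i j).trans (by rw [sub_eq_add_neg]))
        rfl rfl

/-- passive part of the energy of the column `y` -/
def col (N : ℕ) (hN : 1 ≤ N) (y : Tor (2 ^ N)) (K : (torus N hN).Mat) : ℝ :=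
  ∑ x : Tor (2 ^ N), cc K (x, false) (y, false) * dsq x y

theorem col_nonneg (N : ℕ) (hN : 1 ≤ N) (y : Tor (2 ^ N)) (K : (torus N hN).Mat) :
    0 ≤ col N hN y K := sum_nonneg fun _ _ => mul_nonneg (cc_nonneg _ _ _) (dsq_nonneg _ _)

theorem sum_col_le (N : ℕ) (hN : 1 ≤ N) (K : (torus N hN).Mat) :
    ∑ y, col N hN y K ≤ En (torus N hN).r2 K := by
  have h0 : ∀ p q, 0 ≤ cc K p q * (torus N hN).r2 p q := fun p q =>
    mul_nonneg (cc_nonneg _ _ _) ((torus N hN).rho2_nonneg _ p q)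
  unfold col En Gam
  rw [sum_comm, Fintype.sum_prod_type]
  refine sum_le_sum fun x _ => le_trans ?_
    (single_le_sum (fun b _ => sum_nonneg fun q _ => h0 (x, b) q) (mem_univ false))
  rw [Fintype.sum_prod_type]
  refine sum_le_sum fun y _ => le_trans ?_
    (single_le_sum (fun b _ => h0 (x, false) (y, b)) (mem_univ false))
  refine mul_le_mul_of_nonneg_left ?_ (cc_nonneg _ _ _)
  have h1 := le_rx N hN x y
  have h2 := dsq_nonneg x y
  exact le_trans (by linarith) h1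

/-- the torus matrix -/
def HT {M : ℕ} (v : Tor M → ℂ) : Matrix (Tor M) (Tor M) ℂ :=
  (Matrix.of tadj).map Complex.ofReal + Matrix.diagonal v

theorem HT_shift {M : ℕ} [NeZero M] (v : Tor M → ℂ) (x y : Tor M) :
    (HT fun z => v (z - y))⁻¹ x y = (HT v)⁻¹ (x - y) 0 := by
  have e1 : (HT fun z => v (z - y)) = (HT v).submatrix (Equiv.subRight y) (Equiv.subRight y) := by
    ext x z
    have a1 : tadj (x - y) (z - y) = tadj x z := by
      rw [sub_eq_add_neg, sub_eq_add_neg, tadj_add_right]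
    simp [HT, a1, Matrix.diagonal_apply]
  rw [e1, Matrix.inv_submatrix_equiv]
  simp

theorem cc_Km (L : G.Lat) (E : ℝ) {η : ℝ} (hη : 0 < η) (γ a : L.X → ℝ) (x y : L.X) :
    cc (L.Km E η γ a) (x, false) (y, false) = 4 * η ^ 2 * ‖L.Gr (L.wv E η γ a) x y‖ ^ 2 := by
  have e : ∀ z, L.str η γ (z, false) = η := fun _ => rfl
  simp only [cc, Lat.Km, norm_mul, mul_pow, Complex.norm_real, Real.norm_eq_abs, sq_abs,
    Complex.norm_I, Complex.norm_ofNat]
  rw [e, e, Real.sq_sqrt hη.le]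
  ring

theorem HT_sub {M : ℕ} (v : Tor M → ℂ) (z : ℂ) : HT v - z • 1 = HT fun x => v x - z := by
  rw [HT, add_sub_assoc, Matrix.smul_one_eq_diagonal, Matrix.diagonal_sub, HT]

theorem col_cfg {n N : ℕ} (hN : 1 ≤ N) (hn : 2 * (n + 1) < 2 ^ N) (h E : ℝ) {η : ℝ} (hη : 0 < η)
    (y : Tor (2 ^ N)) (ω : (Fin 2 → ℤ) → unitInterval) :
    col N hN y (Kw (torus N hN) E η (cfg h η (off y) ω)) =
      4 * (η ^ 2 * (fv n N hN hn).mom h ⟨E, η⟩ ω) := by
  set v : Tor (2 ^ N) → ℂ := fun z => ((h * centredPotential ω (off 0 z) : ℝ) : ℂ) - ⟨E, η⟩ with hv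
  have e0 : (fv n N hN hn).H h ω - (⟨E, η⟩ : ℂ) • 1 = HT v :=
    HT_sub (fun z : Tor (2 ^ N) => ((h * centredPotential ω (off 0 z) : ℝ) : ℂ)) ⟨E, η⟩
  have e1 : (torus N hN).wv E η (fun x => ga η (cfg h η (off y) ω x))
      (fun x => (cfg h η (off y) ω x).re) = fun z : Tor (2 ^ N) => v (z - y) := by
    refine funext fun z : Tor (2 ^ N) => ?_
    simp only [hv, ← off_eq_off_zero]
    simp only [Lat.wv, cfg, ga_pt_zero, pt_re]
    apply Complex.ext <;> simp
  have e2 : ∀ x : Tor (2 ^ N), cc (Kw (torus N hN) E η (cfg h η (off y) ω)) (x, false) (y, false) =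
      4 * η ^ 2 * ‖(HT v)⁻¹ (x - y) 0‖ ^ 2 := fun x => by
    refine (cc_Km (torus N hN) E hη _ _ x y).trans ?_
    rw [← HT_shift]
    exact congrArg (fun u : Tor (2 ^ N) → ℂ => 4 * η ^ 2 * ‖(HT u)⁻¹ x y‖ ^ 2) e1
  simp only [col, e2]
  rw [← mul_assoc, Soft.FinVol.mom, mul_sum, e0]
  refine Fintype.sum_equiv (Equiv.subRight y) _ _ fun x => ?_
  rw [dsq, off_eq_off_zero]
  change _ = 4 * η ^ 2 * ((∑ j, (off 0 (x - y) j : ℝ) ^ 2) * ‖(HT v)⁻¹ (x - y) 0‖ ^ 2)
  ring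

theorem avg_le {Ω V : Type*} [MeasurableSpace Ω] [Fintype V] [Nonempty V] (μ : Measure Ω)
    {f : V → Ω → ℝ} {g : Ω → ℝ} (hf : ∀ y, Measurable (f y)) (h0 : ∀ y w, 0 ≤ f y w)
    (hg : Integrable g μ) (hfg : ∀ w, ∑ y, f y w ≤ g w) {Z : ℝ≥0∞} {X : ℝ}
    (hZ : ∀ y, Z ≤ ∫⁻ w, ENNReal.ofReal (f y w) ∂μ) (hX : ∫ w, g w ∂μ ≤ X * Fintype.card V) :
    Z ≤ ENNReal.ofReal X := by
  have h2 := sum_le_sum fun y (_ : y ∈ univ) => hZ y
  rw [← lintegral_finsetSum _ fun y _ => (hf y).ennreal_ofReal, sum_const, card_univ,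
    nsmul_eq_mul] at h2
  have h3 : ∫⁻ w, ∑ y, ENNReal.ofReal (f y w) ∂μ ≤ ENNReal.ofReal (∫ w, g w ∂μ) := by
    rw [ofReal_integral_eq_lintegral_ofReal hg
      (Filter.Eventually.of_forall fun w => (sum_nonneg fun y _ => h0 y w).trans (hfg w))]
    refine lintegral_mono fun w => ?_
    rw [← ENNReal.ofReal_sum_of_nonneg fun y _ => h0 y w]
    exact ENNReal.ofReal_le_ofReal (hfg w)
  have h4 := (h2.trans h3).trans (ENNReal.ofReal_le_ofReal hX)
  rw [mul_comm X, ENNReal.ofReal_mul (Nat.cast_nonneg _), ENNReal.ofReal_natCast] at h4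
  exact (ENNReal.mul_le_mul_iff_right (Nat.cast_ne_zero.2 Fintype.card_ne_zero)
    (ENNReal.natCast_ne_top _)).1 h4

theorem measurable_col (N : ℕ) (hN : 1 ≤ N) (E : ℝ) {η : ℝ} (hη : 0 < η) (y : Tor (2 ^ N)) :
    Measurable fun w : Tor (2 ^ N) → ℂ => col N hN y (Kw (torus N hN) E η w) :=
  Finset.measurable_sum _ fun x _ =>
    (bm_Kw (L := torus N hN) E hη (nice_cc (x, false) (y, false))).meas.mul_const _

end Lk

open Lk in
theorem link : LinkStmt := by
  refine ⟨1, le_rfl, fun n => ⟨2 * (n + 1), fun N hN hn => ?_⟩⟩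
  have hn' : 2 * (n + 1) < 2 ^ N := hn.trans_lt Nat.lt_two_pow_self
  refine ⟨fv n N hN hn', fun h E η X hh hη hQ => ?_⟩
  have := isProb_unif hh
  rw [one_mul]
  have hi := (bm_Kw (L := torus N hN) E hη (nice_En (torus N hN).r2)).integrable
    (Measure.pi fun _ => lift η (dens (ud h)))
  refine avg_le (V := Tor (2 ^ N)) (Measure.pi fun _ : Tor (2 ^ N) => lift η (dens (ud h)))
    (measurable_col N hN E hη) (fun y w => col_nonneg N hN y _) hi
    (fun w => sum_col_le N hN _) (fun y => ?_) hQ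
  rw [← (mp_cfg hh η (off_injective y)).lintegral_comp (measurable_col N hN E hη y).ennreal_ofReal]
  refine lintegral_mono fun ω => ENNReal.ofReal_le_ofReal ?_
  have a2 := col_cfg hN hn' h E hη y ω
  have a1 := (col_nonneg N hN y _).trans_eq a2
  exact le_trans (by linarith) a2.ge

end Crest.Agent.N334.Mn
end
end

-- ▼ part N334/Main/Ledger
section

/-!
# Row 334, S0519 (helper24): the parameter ledger
-/

set_option autoImplicit false

open Filter

namespace Crest.Agent.N334.Mn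

theorem clog_two (n : ℕ) (hn : 2 ≤ n) : n ≤ 2 ^ Nat.clog 2 n ∧ 2 ^ Nat.clog 2 n ≤ 2 * n := by
  refine ⟨Nat.le_pow_clog (by norm_num) n, ?_⟩
  have h1 := Nat.pow_pred_clog_lt_self (b := 2) (by norm_num) (show 1 < n by omega)
  have h2 := Nat.clog_pos (b := 2) (by norm_num) (show 1 < n by omega)
  obtain ⟨k, hk⟩ := Nat.exists_eq_succ_of_ne_zero h2.ne'
  rw [hk] at h1 ⊢
  rw [Nat.pred_succ] at h1
  rw [pow_succ]; omega

theorem ledger : LedgerStmt := by
  intro C hC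
  have hC0 : 0 < C := by linarith
  have e1 := (Real.isLittleO_pow_log_id_atTop (n := 3)).bound (c := (216 * C)⁻¹) (by positivity)
  have e2 := (isLittleO_pow_exp_pos_mul_atTop 43 (b := C⁻¹) (by positivity)).bound one_pos
  have ht : Tendsto (fun τ : ℝ => Real.log τ ^ (1 / 4 : ℝ)) atTop atTop :=
    (tendsto_rpow_atTop (by norm_num)).comp Real.tendsto_log_atTop
  filter_upwards [ht.eventually (e1.and (e2.and ((eventually_ge_atTop 301).and
    (eventually_ge_atTop (20 * C))))), eventually_ge_atTop 1] with τ ⟨h1, h2, h3, h4⟩ hτ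
  obtain ⟨v, hv⟩ : ∃ v, v = Real.log τ ^ (1 / 4 : ℝ) := ⟨_, rfl⟩
  have hτv : τ = Real.exp (v ^ 4) := by
    rw [hv, ← Real.rpow_natCast, ← Real.rpow_mul (Real.log_nonneg hτ)]
    norm_num
    rw [Real.exp_log (by linarith)]
  rw [← hv] at h1 h2 h3 h4
  have hv0 : 0 < v := by linarith
  have hv1 : 1 ≤ v := by linarith
  have hl := Real.log_nonneg hv1
  simp only [id, Real.norm_eq_abs, abs_of_pos hv0, abs_of_nonneg (pow_nonneg hl 3), one_mul,
    abs_of_pos (pow_pos hv0 43), abs_of_pos (Real.exp_pos _)] at h1 h2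
  rw [le_inv_mul_iff₀ (by positivity)] at h1
  have hs : √τ = Real.exp (v ^ 4 / 2) := by rw [hτv, Real.exp_half]
  have p4 : v ≤ v ^ 4 := le_self_pow₀ hv1 (by norm_num)
  have p3 : 10 ≤ v ^ 3 := le_trans (by linarith) (le_self_pow₀ hv1 (by norm_num))
  have q1 : C⁻¹ * v ≤ v := mul_le_of_le_one_left hv0.le (inv_le_one_of_one_le₀ hC)
  have q2 : 10 * v ≤ v ^ 4 := by nlinarith
  obtain ⟨r₁, a1, a2⟩ : ∃ r : ℕ, v ≤ r ∧ (r : ℝ) ≤ 2 * v :=
    ⟨⌈v⌉₊, Nat.le_ceil _, by linarith [Nat.ceil_lt_add_one hv0.le]⟩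
  obtain ⟨r₂, b1, b2⟩ : ∃ r : ℕ, 300 * C * v ^ 4 ≤ r ∧ (r : ℝ) ≤ v ^ 6 := by
    refine ⟨⌈300 * C * v ^ 4⌉₊, Nat.le_ceil _, (Nat.ceil_lt_add_one (by positivity)).le.trans ?_⟩
    have : 300 * C * v ^ 4 ≤ 300 * v * v ^ 4 := by gcongr; linarith
    have : 301 * v ^ 5 ≤ v * v ^ 5 := by gcongr
    nlinarith [one_le_pow₀ (n := 5) hv1]
  have c1 : r₁ ^ 2 ≤ r₂ := by
    have : (r₁ : ℝ) ^ 2 ≤ r₂ := by
      calc _ ≤ (2 * v) ^ 2 := by gcongr
        _ = 4 * 1 * v ^ 2 := by ring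
        _ ≤ 300 * C * v ^ 4 := by gcongr <;> norm_num
        _ ≤ _ := b1
    exact_mod_cast this
  have c2 : 301 ≤ r₁ := by exact_mod_cast h3.trans a1
  have c3 : r₁ ≤ r₂ := le_trans (Nat.le_self_pow (by norm_num) _) c1
  have c4 : ∀ r : ℕ, 301 ≤ r → 2 * (r + 8) ≤ r ^ 3 := fun r hr => by
    have : 301 * 301 * r ≤ r * r * r := by gcongr
    nlinarith
  obtain ⟨d1, d2⟩ := clog_two (r₁ + 8) (by omega)
  obtain ⟨d3, d4⟩ := clog_two (r₂ + 8) (by omega)
  have d6 := pow_dvd_pow 2 (Nat.clog_mono_right 2 (show r₁ + 8 ≤ r₂ + 8 by omega))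
  have hr2 : (1 : ℝ) ≤ r₂ := by exact_mod_cast (by omega)
  have d5 : ((2 ^ Nat.clog 2 (r₂ + 8) : ℕ) : ℝ) ≤ v ^ 7 := by
    have : ((2 ^ Nat.clog 2 (r₂ + 8) : ℕ) : ℝ) ≤ 18 * r₂ := by exact_mod_cast (by omega)
    calc _ ≤ 18 * (r₂ : ℝ) := this
      _ ≤ v * v ^ 6 := by gcongr; linarith
      _ = _ := by ring
  have hCv : C ≤ v := by linarith
  clear e1 e2 ht hv
  generalize Nat.clog 2 (r₂ + 8) = j at *
  refine ⟨_, _, _, r₁, r₂, d6, rfl, d1, d2, d3, d4,
    by linarith, ?_, c1, d2.trans (c4 _ c2), d4.trans (c4 _ (c2.trans c3)), ?_, ?_, ?_, ?_, hτ⟩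
  · have : Real.log r₂ ≤ 6 * Real.log v := by
      rw [show (6 : ℝ) = (6 : ℕ) by norm_num, ← Real.log_pow]; gcongr
    calc _ ≤ C * (6 * Real.log v) ^ 3 := by gcongr
      _ ≤ _ := by linarith
  · rw [Real.exp_neg, inv_mul_le_iff₀ (Real.exp_pos _), mul_one]
    calc _ ≤ v * (v ^ 6) ^ 3 := by gcongr
      _ = v ^ 19 := by ring
      _ ≤ v ^ 43 := pow_le_pow_right₀ hv1 (by norm_num)
      _ ≤ _ := h2.trans (Real.exp_le_exp.2 (by rw [inv_mul_eq_div]; gcongr))
  · rw [hτv, ← Real.exp_nat_mul, one_div, ← Real.exp_neg, Real.exp_neg (_ / _),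
      inv_mul_le_iff₀ (Real.exp_pos _), ← Real.exp_add]
    have : 300 * v ^ 4 ≤ r₂ / C := by rw [le_div_iff₀ hC0]; linarith
    calc _ ≤ v * (v ^ 7) ^ 4 := by gcongr
      _ = v ^ 29 := by ring
      _ ≤ v ^ 43 := pow_le_pow_right₀ hv1 (by norm_num)
      _ ≤ _ := h2.trans (Real.exp_le_exp.2 (by push_cast; linarith))
  · rw [hs]
    calc _ ≤ v * (v ^ 7) ^ 6 := by gcongr
      _ = v ^ 43 := by ring
      _ ≤ _ := h2.trans (Real.exp_le_exp.2 (by linarith))
  · rw [hs]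
    have e3 : C * (r₁ : ℝ) ^ 3 ≤ v / 20 * (2 * v) ^ 3 := by gcongr; linarith
    calc _ ≤ Real.exp 1 * Real.exp (C * (r₁ : ℝ) ^ 3) := by
          gcongr; linarith [Real.add_one_le_exp 1]
      _ ≤ _ := by rw [← Real.exp_add]; exact Real.exp_le_exp.2 (by linarith)

end Crest.Agent.N334.Mn
end

-- ▼ part N334/End/TV
section

/-!
# Row 334 (helper52): the total-variation step of note 245
-/

set_option autoImplicit false

open Filter Topology Complex MeasureTheory Function Finset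
open scoped InnerProductSpace ComplexConjugate ENNReal

namespace Crest.Agent.N334.End

open Crest.MathPhysics.Anderson Crest.Agent.N334.Soft

lemma int_sq_le {ι : Type} {S B : Finset ι} (hS : S ⊆ B) {u v : ι → ℝ → ℝ} {η θ α β : ℝ}
    (hu : ∀ x, Continuous (u x)) (hv : ∀ x, Continuous (v x)) (hη : 0 ≤ η) (hθ : 0 < θ)
    (h : α ≤ β) : ∫ a in α..β, η * ∑ x ∈ S, u x a ^ 2 ≤
      (1 + θ) * (∫ a in α..β, η * ∑ x ∈ S, v x a ^ 2) +
        (1 + θ⁻¹) * ∫ a in α..β, η * ∑ x ∈ B, (u x a - v x a) ^ 2 := by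
  rw [← intervalIntegral.integral_const_mul, ← intervalIntegral.integral_const_mul,
    ← intervalIntegral.integral_add (Continuous.intervalIntegrable (by fun_prop) _ _)
      (Continuous.intervalIntegrable (by fun_prop) _ _)]
  refine intervalIntegral.integral_mono_on h (Continuous.intervalIntegrable (by fun_prop) _ _)
    (Continuous.intervalIntegrable (by fun_prop) _ _) fun a _ => ?_
  rw [mul_left_comm _ η, mul_left_comm _ η, ← mul_add]
  refine mul_le_mul_of_nonneg_left (le_trans ?_ (add_le_add_right (mul_le_mul_of_nonneg_left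
    (sum_le_sum_of_subset_of_nonneg hS fun _ _ _ => sq_nonneg _) (by positivity)) _)) hη
  rw [mul_sum, mul_sum, ← sum_add_distrib]
  refine sum_le_sum fun x _ => ?_
  have : 0 ≤ θ⁻¹ * (θ * v x a - (u x a - v x a)) ^ 2 := by positivity
  have h2 : θ⁻¹ * (θ * v x a - (u x a - v x a)) ^ 2 =
    θ * v x a ^ 2 - 2 * v x a * (u x a - v x a) + θ⁻¹ * (u x a - v x a) ^ 2 := by field_simp; ring
  nlinarith

lemma arith {A A' aS aB tS tS' tB tB' m m' e e' D θ : ℝ} (hθ : 0 ≤ θ) (hθ1 : θ ≤ 1) (hA' : 0 ≤ A')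
    (ha0 : 0 ≤ aS) (ha : aS ≤ aB) (he : 0 ≤ e) (he' : 0 ≤ e') (hD : 0 ≤ D) (h0 : 0 ≤ tB) (h0' : 0 ≤ tB')
    (h1 : tS' ≤ (1 + θ) * (aS * A') + e') (h2 : aS * A ≤ (1 + θ) * tS + e)
    (h3 : aB * A' ≤ (1 + θ) * tB' + e') (h4 : tB ≤ (1 + θ) * (aB * A) + e)
    (h5 : aB * A ≤ (1 + θ) * tB + e) (h6 : tS ≤ m) (h7 : tB ≤ m) (h8 : tB' ≤ m') (h9 : m' ≤ m + D) :
    tS' ≤ tS + D + (m - tB) + 3 * θ * (m + m') + 3 * (e + e') := by
  have k1 : θ * (aS * A') ≤ 2 * θ * m' + e' := by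
    have : aS * A' ≤ 2 * m' + e' := by nlinarith [mul_le_mul_of_nonneg_right ha hA']
    nlinarith [mul_le_mul_of_nonneg_left this hθ]
  have k2 : θ * (aB * A) ≤ 2 * θ * m + e := by
    have : aB * A ≤ 2 * m + e := by nlinarith
    nlinarith [mul_le_mul_of_nonneg_left this hθ]
  have k3 := mul_le_mul_of_nonneg_left h6 hθ
  have k4 := mul_le_mul_of_nonneg_left h8 hθ
  have k5 := mul_nonneg hθ (h0.trans h7)
  have k6 := mul_nonneg hθ (h0'.trans h8)
  rcases le_total A' A with h | h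
  · nlinarith [mul_le_mul_of_nonneg_left h ha0]
  · nlinarith [mul_nonneg (sub_nonneg.2 ha) (sub_nonneg.2 h)]

variable {d : ℕ} {τ h η : ℝ} {ω : (Fin d → ℤ) → unitInterval}

lemma out_sq (B : Finset (Fin d → ℤ)) (u : Ell2 d) :
    out B u ^ 2 = ‖u‖ ^ 2 - ∑ x ∈ B, ‖u x‖ ^ 2 := by
  simpa [out, fs] using lp.norm_compl_sum_single (p := 2) (by norm_num) u B

/-- mass of `η (Im G)²` on `S` -/
noncomputable def tt (τ h η α β : ℝ) (S : Finset (Fin d → ℤ)) (ω : (Fin d → ℤ) → unitInterval) : ℝ :=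
  ∫ a in α..β, η * ∑ x ∈ S, (g τ h a η ω x 0).im ^ 2

/-- total mass -/
noncomputable def mm (τ h η α β : ℝ) (ω : (Fin d → ℤ) → unitInterval) : ℝ :=
  ∫ a in α..β, η * ‖P (Hm τ h ω) a η (dl 0)‖ ^ 2

/-- mass outside `B` -/
noncomputable def T (τ h η α β : ℝ) (B : Finset (Fin d → ℤ)) (ω : (Fin d → ℤ) → unitInterval) : ℝ :=
  ∫ a in α..β, η * out B (P (Hm τ h ω) a η (dl 0)) ^ 2

lemma cont_ga (hη : 0 < η) (y x : Fin d → ℤ) : Continuous fun a => g τ h a η ω y x :=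
  Continuous.uncurry_left (f := fun ω a => g τ h a η ω y x) ω (cont_g hη y x)

lemma cont_Pa (hη : 0 < η) (u : Ell2 d) : Continuous fun a => P (Hm τ h ω) a η u :=
  Continuous.uncurry_left (f := fun ω a => P (Hm τ h ω) a η u) ω (cont_P hη u)

lemma cont_tt (hη : 0 < η) (S : Finset (Fin d → ℤ)) :
    Continuous fun a => η * ∑ x ∈ S, (g τ h a η ω x 0).im ^ 2 := by
  have := fun x => cont_ga (τ := τ) (h := h) (ω := ω) hη x 0
  fun_prop

lemma T_eq (hη : 0 < η) (α β : ℝ) (B : Finset (Fin d → ℤ)) :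
    T τ h η α β B ω = mm τ h η α β ω - tt τ h η α β B ω := by
  have := cont_Pa (τ := τ) (h := h) (ω := ω) hη (dl 0)
  rw [mm, tt, ← intervalIntegral.integral_sub (Continuous.intervalIntegrable (by fun_prop) _ _)
    ((cont_tt hη B).intervalIntegrable _ _)]
  simp only [T, out_sq, P_apply hη, norm_real, Real.norm_eq_abs, sq_abs, mul_sub]

lemma T_nonneg (hη : 0 < η) {α β : ℝ} (hαβ : α ≤ β) (B : Finset (Fin d → ℤ)) :
    0 ≤ T τ h η α β B ω := intervalIntegral.integral_nonneg hαβ fun a _ => by positivity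

lemma tt_nonneg (hη : 0 < η) {α β : ℝ} (hαβ : α ≤ β) (B : Finset (Fin d → ℤ)) :
    0 ≤ tt τ h η α β B ω := intervalIntegral.integral_nonneg hαβ fun a _ => by positivity

lemma tt_le (hη : 0 < η) {α β : ℝ} (hαβ : α ≤ β) (B : Finset (Fin d → ℤ)) :
    tt τ h η α β B ω ≤ mm τ h η α β ω := sub_nonneg.1 (T_eq hη α β B ▸ T_nonneg hη hαβ B)

lemma tt_sdiff (hη : 0 < η) (α β : ℝ) {S B : Finset (Fin d → ℤ)} (hS : S ⊆ B) :
    tt τ h η α β (B \ S) ω + tt τ h η α β S ω = tt τ h η α β B ω := by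
  rw [tt, tt, ← intervalIntegral.integral_add ((cont_tt hη _).intervalIntegrable _ _)
    ((cont_tt hη _).intervalIntegrable _ _)]
  simp only [← mul_add, sum_sdiff hS, tt]

lemma cont_T (hη : 0 < η) (α β : ℝ) (B : Finset (Fin d → ℤ)) : Continuous (T τ h η α β B) := by
  refine intervalIntegral.continuous_parametric_intervalIntegral_of_continuous' ?_ α β
  have h1 := cont_P (τ := τ) (h := h) hη (dl (0 : Fin d → ℤ))
  have h2 := fun x => cont_g (τ := τ) (h := h) hη x (0 : Fin d → ℤ)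
  simp only [uncurry_def, out_sq, P_apply hη]
  fun_prop

lemma mm_eq (hη : 0 < η) (α β : ℝ) : mm τ h η α β ω =
    qf (Hm τ h ω) (dl 0) fun l => ∫ a in α..β, η * pk η (l - a) ^ 2 := by
  rw [← qf_int Hm_sa _ (k := fun a l => η * pk η (l - a) ^ 2)
    (by exact ((cont_pk2 hη).pow 2).const_mul η)]
  simp only [mm, norm_P_sq Hm_sa hη]

lemma cont_kap (hη : 0 < η) (α β : ℝ) : Continuous fun l => ∫ a in α..β, η * pk η (l - a) ^ 2 :=
  intervalIntegral.continuous_parametric_intervalIntegral_of_continuous'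
    ((((continuous_pk hη).comp (continuous_fst.sub continuous_snd)).pow 2).const_mul η) α β

lemma mm_le (hη : 0 < η) {α β : ℝ} (hαβ : α ≤ β) : mm τ h η α β ω ≤ Real.pi := by
  rw [mm_eq hη]
  refine (qf_mono _ (cont_kap hη α β) continuous_const fun l _ => le_trans ?_
    (int_pk_le hη l α β)).trans_eq (by simp [qf_const Hm_sa])
  refine intervalIntegral.integral_mono_on hαβ ((((cont_pk' hη l).pow 2).const_mul
    η).intervalIntegrable _ _) ((cont_pk' hη l).intervalIntegrable _ _) fun a _ => ?_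
  nlinarith [mul_pk_le hη (l - a), pk_nonneg hη.le (l - a)]

lemma mm_half (hη : 0 < η) (α β : ℝ) : mm τ h (η / 2) α β ω ≤
    mm τ h η α β ω + η * ((g τ h α η ω 0 0).im + (g τ h β η ω 0 0).im) := by
  have h1 := fun a => (cont_pk hη a).const_mul η
  rw [mm_eq hη, mm_eq (half_pos hη), mul_add, ← qf_dl hη, ← qf_dl hη, ← qf_mul _ _ (cont_pk hη _),
    ← qf_mul _ _ (cont_pk hη _), ← qf_add _ (h1 α) (h1 β),
    ← qf_add _ (cont_kap hη α β) ((h1 α).fun_add (h1 β))]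
  exact qf_mono _ (cont_kap (half_pos hη) α β) ((cont_kap hη α β).add ((h1 α).add (h1 β)))
    fun l _ => kap_diff hη l α β

lemma err_le (hη : 0 < η) {w : ℝ} (hw : η ≤ w) (α : ℝ) (B : Finset (Fin d → ℤ)) :
    ∫ a in α..α + w, η * ∑ x ∈ B, ((g τ h a η ω x 0).im -
      (g τ h α w ω x 0).im / (g τ h α w ω 0 0).im * (g τ h a η ω 0 0).im) ^ 2 ≤
      100 * w ^ 2 * ∑ x ∈ B, dt τ h α w ω 0 x := by
  have hw0 := hη.trans_le hw
  have hM := im_g_pos (τ := τ) (h := h) (a := α) (ω := ω) hw0 0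
  have hc := fun x => cont_ga (τ := τ) (h := h) (ω := ω) hη x 0
  simp only [mul_sum]
  rw [intervalIntegral.integral_finsetSum fun x _ => Continuous.intervalIntegrable (by fun_prop) _ _]
  refine sum_le_sum fun x _ => ?_
  set c := (g τ h α w ω x 0).im / (g τ h α w ω 0 0).im with hcd
  set u : Ell2 d := dl x - (c : ℂ) • dl 0 with hu
  have h1 : ∀ v : Ell2 d, ⟪u, v⟫_ℂ = v x - c * v 0 := fun v => by
    rw [hu, inner_sub_left, inner_smul_left, inner_dl, inner_dl, conj_ofReal]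
  have h2 : (g τ h α w ω 0 0).im * qf (Hm τ h ω) u (fun l => pk w (l - α)) = dt τ h α w ω 0 x := by
    rw [qf, ← P, h1, hu, map_sub, map_smul]
    simp only [lp.coeFn_sub, lp.coeFn_smul, Pi.sub_apply, Pi.smul_apply, P_apply hw0, smul_eq_mul,
      ← ofReal_mul, ← ofReal_sub, ofReal_re, dt, g_symm hw0 0 x, hcd]
    field_simp; ring
  have h3 := (qf_int (H := Hm τ h ω) Hm_sa u (cont_pk2 hη) α (α + w)).trans_le ((qf_mono u
    (intervalIntegral.continuous_parametric_intervalIntegral_of_continuous'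
      (f := fun l a => pk η (l - a)) ((continuous_pk hη).comp (continuous_fst.sub continuous_snd)) _ _)
    ((cont_pk hw0 α).const_mul _) fun l _ => int_pk_le_win hη hw α l).trans_eq
      (qf_mul u _ (cont_pk hw0 α)))
  have h4 : Continuous fun a => qf (Hm τ h ω) u fun l => pk η (l - a) :=
    continuous_re.comp (continuous_const.inner (cont_Pa hη u))
  refine (intervalIntegral.integral_mono_on (by linarith) (Continuous.intervalIntegrable
    (by fun_prop) _ _) ((h4.const_mul (5 * w * (g τ h α w ω 0 0).im)).intervalIntegrable _ _)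
    fun a ha => ?_).trans ?_
  · have h5 := norm_inner_P_sq (H := Hm τ h ω) (a := a) Hm_sa hη u (dl 0)
    rw [h1, P_apply hη, P_apply hη, ← ofReal_mul, ← ofReal_sub, norm_real, Real.norm_eq_abs,
      sq_abs] at h5
    have h6 := qf_mono (H := Hm τ h ω) (dl 0) ((cont_pk hη a).const_mul η)
      ((cont_pk hw0 α).const_mul (5 * w)) fun l _ =>
        mul_pk_le_win hη hw (abs_le.2 ⟨by linarith [ha.1], by linarith [ha.2]⟩) l
    rw [qf_mul _ _ (cont_pk hη a), qf_mul _ _ (cont_pk hw0 α), qf_dl hw0] at h6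
    have h7 : 0 ≤ qf (Hm τ h ω) u fun l => pk η (l - a) := by rw [qf_pk Hm_sa hη]; positivity
    nlinarith [mul_le_mul_of_nonneg_left h5 hη.le, mul_le_mul_of_nonneg_left h6 h7]
  · rw [intervalIntegral.integral_const_mul, ← h2]
    exact (mul_le_mul_of_nonneg_left h3 (by positivity)).trans_eq (by ring)

lemma window (hη : 0 < η) {w θ : ℝ} (hw : η ≤ w) (hθ : 0 < θ) (hθ1 : θ ≤ 1) (α : ℝ)
    {S B : Finset (Fin d → ℤ)} (hS : S ⊆ B) :
    tt τ h (η / 2) α (α + w) S ω ≤ tt τ h η α (α + w) S ω +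
      (mm τ h η α (α + w) ω - tt τ h η α (α + w) B ω) +
      3 * θ * (mm τ h η α (α + w) ω + mm τ h (η / 2) α (α + w) ω) +
      (η * ((g τ h α η ω 0 0).im + (g τ h (α + w) η ω 0 0).im) +
        600 * (1 + θ⁻¹) * w ^ 2 * ∑ x ∈ B, dt τ h α w ω 0 x) := by
  have hα : α ≤ α + w := by linarith
  have hη2 := half_pos hη
  set c := fun x => (g τ h α w ω x 0).im / (g τ h α w ω 0 0).im
  set e := (1 + θ⁻¹) * (100 * w ^ 2 * ∑ x ∈ B, dt τ h α w ω 0 x)
  have he : 0 ≤ e := mul_nonneg (by positivity) (mul_nonneg (by positivity)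
    (sum_nonneg fun x _ => dt_nonneg (hη.trans_le hw) _ _))
  have key : ∀ η', 0 < η' → η' ≤ w → ∀ S ⊆ B, tt τ h η' α (α + w) S ω ≤ (1 + θ) *
      ((∑ x ∈ S, c x ^ 2) * tt τ h η' α (α + w) {0} ω) + e ∧
      (∑ x ∈ S, c x ^ 2) * tt τ h η' α (α + w) {0} ω ≤ (1 + θ) * tt τ h η' α (α + w) S ω + e := by
    intro η' h1 h2 S hS
    have h3 := fun x => continuous_im.comp (cont_ga (τ := τ) (h := h) (ω := ω) h1 x 0)
    have h4 : (∑ x ∈ S, c x ^ 2) * tt τ h η' α (α + w) {0} ω =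
        ∫ a in α..α + w, η' * ∑ x ∈ S, (c x * (g τ h a η' ω 0 0).im) ^ 2 := by
      simp only [tt, ← intervalIntegral.integral_const_mul, sum_singleton, mul_pow, ← sum_mul,
        mul_left_comm η']
    have h5 := mul_le_mul_of_nonneg_left (err_le (τ := τ) (h := h) (ω := ω) h1 h2 α B)
      (by positivity : 0 ≤ 1 + θ⁻¹)
    rw [h4]
    refine ⟨(int_sq_le hS h3 (fun x => (h3 0).const_mul (c x)) h1.le hθ hα).trans
      (add_le_add_right h5 _), (int_sq_le hS (fun x => (h3 0).const_mul (c x)) h3 h1.le hθ hα).trans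
      (add_le_add_right (le_trans (le_of_eq ?_) h5) _)⟩
    simp only [sub_sq_comm (c _ * _), comp, c]
  have h2 : η / 2 ≤ w := by linarith
  refine (arith hθ.le hθ1 (tt_nonneg hη2 hα _) (sum_nonneg fun _ _ => sq_nonneg _)
    (sum_le_sum_of_subset_of_nonneg hS fun _ _ _ => sq_nonneg _) he he (mul_nonneg hη.le (add_pos (im_g_pos hη 0) (im_g_pos hη 0)).le)
    (tt_nonneg hη hα _) (tt_nonneg hη2 hα _) (key _ hη2 h2 S hS).1 (key _ hη hw S hS).2
    (key _ hη2 h2 B subset_rfl).2 (key _ hη hw B subset_rfl).1 (key _ hη hw B subset_rfl).2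
    (tt_le hη hα _) (tt_le hη hα _) (tt_le hη2 hα _) (mm_half hη _ _)).trans_eq ?_
  simp only [e]; ring

lemma T_half (hη : 0 < η) {w θ : ℝ} (hw : η ≤ w) (hθ : 0 < θ) (hθ1 : θ ≤ 1) (α : ℝ) (N : ℕ)
    (R B : Finset (Fin d → ℤ)) :
    T τ h (η / 2) α (α + N * w) R ω ≤ T τ h η α (α + N * w) R ω +
      (T τ h η α (α + N * w) B ω + T τ h (η / 2) α (α + N * w) B ω + 6 * Real.pi * θ +
      ∑ j ∈ range N, (η * ((g τ h (α + j * w) η ω 0 0).im + (g τ h (α + j * w + w) η ω 0 0).im) +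
        600 * (1 + θ⁻¹) * w ^ 2 * ∑ x ∈ B, dt τ h (α + j * w) w ω 0 x)) := by
  have hη2 := half_pos hη
  have hα : α ≤ α + N * w := le_add_of_nonneg_right (mul_nonneg N.cast_nonneg (hη.le.trans hw))
  have h1 : ∀ f : ℝ → ℝ, Continuous f → ∑ j ∈ range N, ∫ a in α + j * w..α + j * w + w, f a =
      ∫ a in α..α + N * w, f a := fun f hf => by
    simpa [add_mul, add_assoc] using intervalIntegral.sum_integral_adjacent_intervals
      (a := fun j : ℕ => α + j * w) (n := N) (μ := volume) fun j _ => hf.intervalIntegrable _ _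
  have h2 : ∀ η', 0 < η' → ∀ S, ∑ j ∈ range N, tt τ h η' (α + j * w) (α + j * w + w) S ω =
      tt τ h η' α (α + N * w) S ω := fun η' h S => h1 _ (cont_tt h S)
  have h3 : ∀ η', 0 < η' → ∑ j ∈ range N, mm τ h η' (α + j * w) (α + j * w + w) ω =
      mm τ h η' α (α + N * w) ω := fun η' h => h1 _ (((cont_Pa h _).norm.pow 2).const_mul _)
  have h4 := sum_le_sum fun j (_ : j ∈ range N) => window (τ := τ) (h := h) (ω := ω) hη hw hθ hθ1
    (α + j * w) (sdiff_subset (s := B) (t := R))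
  rw [sum_add_distrib, sum_add_distrib, sum_add_distrib, ← mul_sum, sum_add_distrib,
    sum_sub_distrib, h2 _ hη, h2 _ hη, h2 _ hη2, h3 _ hη, h3 _ hη2] at h4
  have h5 := tt_sdiff (τ := τ) (h := h) (ω := ω) hη α (α + N * w) (subset_union_right (s₁ := B) (s₂ := R))
  have h6 := tt_sdiff (τ := τ) (h := h) (ω := ω) hη2 α (α + N * w) (subset_union_right (s₁ := B) (s₂ := R))
  have h7 := tt_sdiff (τ := τ) (h := h) (ω := ω) hη2 α (α + N * w) (subset_union_left (s₁ := B) (s₂ := R))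
  rw [union_sdiff_right] at h5 h6
  simp only [T_eq hη, T_eq hη2]
  nlinarith [tt_le (τ := τ) (h := h) (ω := ω) hη hα (B ∪ R), mm_le (τ := τ) (h := h) (ω := ω) hη hα,
    mm_le (τ := τ) (h := h) (ω := ω) hη2 hα, tt_nonneg (τ := τ) (h := h) (ω := ω) hη2 hα ((B ∪ R) \ B)]

end Crest.Agent.N334.End
end

-- ▼ part N334/End/Tr
section

/-!
# Row 334 (helper52): transfer from finite volume, and almost sure tightness
-/

set_option autoImplicit false

open Filter Topology Complex MeasureTheory Function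
open Finset hiding box
open scoped InnerProductSpace ComplexConjugate ENNReal Matrix.Norms.L2Operator

namespace Crest.Agent.N334.End

open Crest.MathPhysics.Anderson Crest.Agent.N334.Soft Crest.Agent.N336.Q

variable {h η α β : ℝ} {z : ℂ} {ω : (Fin 2 → ℤ) → unitInterval} {n : ℕ}

lemma cont_out {d : ℕ} (B : Finset (Fin d → ℤ)) : Continuous (out B) := by
  refine (continuous_id.sub (continuous_finsetSum _ fun z _ =>
    (lp.isometry_single (E := fun _ : Fin d → ℤ => ℂ) z).continuous.comp ?_)).norm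
  simp only [← inner_dl]; fun_prop

lemma tendsto_out (u : Ell2 2) : Tendsto (fun R => out (box R) u) atTop (𝓝 0) := by
  have h1 : Tendsto box atTop atTop := tendsto_atTop_finset_of_monotone
    (fun R R' h => Fintype.piFinset_subset _ _ fun j => Icc_subset_Icc (by omega) (by omega))
    fun x => ⟨univ.sup fun j => (x j).natAbs, Fintype.mem_piFinset.2 fun j => by
      have := le_sup (f := fun j => (x j).natAbs) (mem_univ j)
      simp only [mem_Icc]; omega⟩
  have h2 := ((lp.hasSum_single (by norm_num) u).comp h1).const_sub u |>.norm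
  rwa [sub_self, norm_zero] at h2

lemma sa_fin (F : FinVol n) : IsSelfAdjoint (ap (F.H h ω)) :=
  (IsSelfAdjoint.map (F.herm h ω).isSelfAdjoint (Matrix.toEuclideanCLM (𝕜 := ℂ) (n := F.ι)) :)

lemma col_eq (F : FinVol n) (hz : z.im ≠ 0) (y : F.ι) :
    G (ap (F.H h ω)) z (EuclideanSpace.single F.o 1) y =
      (F.H h ω - z • (1 : Matrix F.ι F.ι ℂ))⁻¹ y F.o := by
  have h1 : IsUnit (F.H h ω - z • (1 : Matrix F.ι F.ι ℂ)) := by
    refine (isUnit_map_iff (Matrix.toEuclideanCLM (𝕜 := ℂ) (n := F.ι)) _).1 ?_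
    rw [map_sub, map_smul, map_one]
    exact isUnit_sub (sa_fin F) hz
  rw [G_eq (sa_fin F) hz (w := ap (F.H h ω - z • (1 : Matrix F.ι F.ι ℂ))⁻¹ (.single F.o 1))]
  · simp [ap_apply]
  · conv_rhs => rw [← ap_one (EuclideanSpace.single F.o 1),
      ← Matrix.mul_nonsing_inv _ ((Matrix.isUnit_iff_isUnit_det _).1 h1), ap_mul, ap_sub, ap_smul,
      ap_one]

lemma cont_col (F : FinVol n) (hη : 0 < η) : Continuous fun p : ℝ × ((Fin 2 → ℤ) → unitInterval) =>
    G (ap (F.H h p.2)) ⟨p.1, η⟩ (EuclideanSpace.single F.o 1) := by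
  refine continuous_G (fun _ => sa_fin F) (fun w => ?_) (by simp only [mk_eq_add_mul_I]; fun_prop)
    hη.ne' (fun _ => rfl) _
  refine (PiLp.continuous_toLp 2 _).comp (continuous_pi fun y => continuous_finsetSum _ fun x _ =>
    Continuous.mul ?_ continuous_const)
  simp only [FinVol.H, Matrix.add_apply, Matrix.diagonal_apply, centredPotential]
  split_ifs <;> fun_prop

lemma norm_ext (F : FinVol n) (u : Vec F.ι) : ‖F.ext u‖ = ‖u‖ := by
  rw [← sq_eq_sq₀ (norm_nonneg _) (norm_nonneg _), norm_sq_of_supp _ (univ.map F.e), sum_map,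
    EuclideanSpace.norm_sq_eq]
  · exact sum_congr rfl fun y _ => by simp [F.ext_apply, F.e.injective.eq_iff]
  · exact fun z hz => (F.ext_apply u z).trans (sum_eq_zero fun y _ => if_neg fun h =>
      hz (mem_map.2 ⟨y, mem_univ y, h.symm⟩))

lemma norm_ext_col_sub (F : FinVol n) (hz : z.im ≠ 0) :
    ‖F.ext (G (ap (F.H h ω)) z (EuclideanSpace.single F.o 1)) - G (Hm 1 h ω) z (dl 0)‖ ≤
      (|z.im|⁻¹ * ‖Hm 1 h ω - z • 1‖ + 1) * out (box n) (G (Hm 1 h ω) z (dl 0)) := by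
  have hu := HG (H := Hm 1 h ω) Hm_sa hz (dl 0)
  set u := G (Hm 1 h ω) z (dl 0)
  let w : Vec F.ι := WithLp.toLp 2 fun y => fs (box n) u (F.e y)
  have h1 : F.Sup n w := fun y hy j => by
    have : F.e y ∈ box n := by by_contra h; exact hy (by simp [w, fs_apply, h])
    exact abs_le.2 (mem_Icc.1 (Fintype.mem_piFinset.1 this j))
  have h2 : F.ext w = fs (box n) u := by
    ext x
    by_cases hx : ∃ y, F.e y = x
    · obtain ⟨y, rfl⟩ := hx
      simp [F.ext_apply, F.e.injective.eq_iff, w]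
    · rw [F.ext_apply, sum_eq_zero fun y _ => if_neg fun h => hx ⟨y, h.symm⟩, fs_apply, if_neg]
      exact fun hb => hx (F.cover x fun j =>
        (abs_le.2 (mem_Icc.1 (Fintype.mem_piFinset.1 hb j))).trans (by omega))
  have h3 : F.ext (EuclideanSpace.single F.o 1) = dl 0 := (F.ext_orb h ω 0 n.zero_le).2
  have h4 := norm_G_le (sa_fin (h := h) (ω := ω) F) hz
    (EuclideanSpace.single F.o 1 - (ap (F.H h ω) w - z • w))
  rw [map_sub, G_eq (sa_fin F) hz (w := w) rfl, ← norm_ext, ← norm_ext F (_ - _), map_sub, map_sub,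
    map_sub, map_smul, F.ext_H h ω h1, h2, h3, ← hu, ← le_inv_mul_iff₀ (abs_pos.2 hz)] at h4
  have h5 := (Hm 1 h ω - z • 1).le_opNorm (u - fs (box n) u)
  rw [map_sub] at h5
  refine (norm_sub_le_norm_sub_add_norm_sub _ (fs (box n) u) _).trans ?_
  rw [add_mul, one_mul, norm_sub_rev _ u, mul_assoc]
  exact add_le_add_left (h4.trans (mul_le_mul_of_nonneg_left h5 (by positivity))) _

lemma lint_T_le (hη : 0 < η) (hαβ : α ≤ β) {q : ℝ} (hq : ∀ n, ∃ F : FinVol n,
    ∫⁻ a in Set.Ioc α β, ∫⁻ ω, ENNReal.ofReal (η ^ 2 * F.mom h ⟨a, η⟩ ω) ∂siteMeasure (Fin 2 → ℤ) ≤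
      ENNReal.ofReal q) {r : ℕ} (hr : 0 < r) :
    ∫⁻ ω, ENNReal.ofReal (T 1 h η α β (box r) ω) ∂siteMeasure _ ≤
      ENNReal.ofReal ((η * r ^ 2)⁻¹ * q) := by
  choose F hF using hq
  have h1 : Continuous fun p : ℝ × ((Fin 2 → ℤ) → unitInterval) =>
      η * out (box r) (P (Hm 1 h p.2) p.1 η (dl 0)) ^ 2 :=
    (((cont_out _).comp ((cont_P hη _).comp continuous_swap)).pow 2).const_mul η
  have h2 : ∀ n, Measurable fun p : ℝ × ((Fin 2 → ℤ) → unitInterval) =>
      ENNReal.ofReal (η ^ 2 * (F n).mom h ⟨p.1, η⟩ p.2) := fun n => by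
    have := cont_col (h := h) (F n) hη
    simp only [FinVol.mom, ← col_eq (z := ⟨_, η⟩) (F n) hη.ne']
    exact Continuous.measurable (ENNReal.continuous_ofReal.comp (by fun_prop))
  have h3 : ∀ ω, ENNReal.ofReal (T 1 h η α β (box r) ω) = ∫⁻ a in Set.Ioc α β,
      ENNReal.ofReal (η * out (box r) (P (Hm 1 h ω) a η (dl 0)) ^ 2) := fun ω => by
    rw [T, intervalIntegral.integral_of_le hαβ]
    exact ofReal_integral_eq_lintegral_ofReal ((((cont_out _).comp (cont_Pa hη _)).pow 2).const_mul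
      η).integrableOn_Ioc (Eventually.of_forall fun a => by positivity)
  simp only [h3]
  rw [← lintegral_prod_symm _ h1.measurable.ennreal_ofReal.aemeasurable,
    ENNReal.ofReal_mul (by positivity)]
  refine le_trans (lintegral_mono fun p => ?_) ((lintegral_liminf_le (u := atTop) fun n =>
    (h2 n).const_mul (ENNReal.ofReal (η * r ^ 2)⁻¹)).trans (liminf_le_of_frequently_le'
      (Frequently.of_forall fun n => ?_)))
  · have h4 : Tendsto (fun n => (F n).ext (G (ap ((F n).H h p.2)) ⟨p.1, η⟩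
        (EuclideanSpace.single (F n).o 1))) atTop (𝓝 (G (Hm 1 h p.2) ⟨p.1, η⟩ (dl 0))) :=
      tendsto_iff_norm_sub_tendsto_zero.2 (squeeze_zero (fun _ => norm_nonneg _)
        (fun n => norm_ext_col_sub (F n) hη.ne') (by simpa using (tendsto_out _).const_mul _))
    have h5 := ENNReal.tendsto_ofReal (((((cont_out (box r)).tendsto _).comp h4).pow 2).const_mul η)
    refine le_trans (ENNReal.ofReal_le_ofReal (mul_le_mul_of_nonneg_left (pow_le_pow_left₀
      (norm_nonneg _) (lp.norm_mono two_ne_zero fun x => ?_) 2) hη.le))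
      (h5.liminf_eq.symm.trans_le (liminf_le_liminf (Eventually.of_forall fun n => ?_)))
    · simp only [lp.coeFn_sub, Pi.sub_apply, fs_apply]
      split_ifs
      · simp
      · rw [sub_zero, sub_zero, P_apply hη, norm_real]; exact abs_im_le_norm _
    · rw [← ENNReal.ofReal_mul (by positivity), comp, FinVol.tail_ext, tl_sq]
      refine ENNReal.ofReal_le_ofReal ?_
      rw [le_inv_mul_iff₀ (by positivity), show ∀ s, η * r ^ 2 * (η * s) = η ^ 2 * (r ^ 2 * s) from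
        fun s => by ring, mul_sum]
      refine mul_le_mul_of_nonneg_left ((sum_le_sum fun y hy => ?_).trans
        (sum_le_sum_of_subset_of_nonneg (subset_univ _) fun _ _ _ => by positivity)) (by positivity)
      obtain ⟨j, hj⟩ := (mem_filter.1 hy).2
      rw [col_eq _ hη.ne']
      refine mul_le_mul_of_nonneg_right (le_trans ?_ (single_le_sum
        (fun j _ => sq_nonneg ((F n).e y j : ℝ)) (mem_univ j))) (by positivity)
      rw [← sq_abs ((F n).e y j : ℝ)]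
      exact pow_le_pow_left₀ (by positivity) (by exact_mod_cast hj.le) 2
  · rw [lintegral_const_mul _ (h2 n), lintegral_prod _ (h2 n).aemeasurable]
    exact mul_le_mul_right (hF n) _

/-- nonnegative random variable with expectation at most `C` -/
structure EB (f : ((Fin 2 → ℤ) → unitInterval) → ℝ) (C : ℝ) : Prop where
  meas : Measurable f
  nn : ∀ ω, 0 ≤ f ω
  hC : 0 ≤ C
  le : ∫⁻ ω, ENNReal.ofReal (f ω) ∂siteMeasure _ ≤ ENNReal.ofReal C

section
variable {f k : ((Fin 2 → ℤ) → unitInterval) → ℝ} {C D : ℝ}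

lemma EB.add (hf : EB f C) (hk : EB k D) : EB (fun ω => f ω + k ω) (C + D) :=
  ⟨hf.1.add hk.1, fun ω => add_nonneg (hf.2 ω) (hk.2 ω), add_nonneg hf.3 hk.3, by
    simp only [ENNReal.ofReal_add (hf.2 _) (hk.2 _), ENNReal.ofReal_add hf.3 hk.3,
      lintegral_add_left hf.1.ennreal_ofReal]
    exact add_le_add hf.4 hk.4⟩

lemma EB.mul (hf : EB f C) (hD : 0 ≤ D) : EB (fun ω => D * f ω) (D * C) :=
  ⟨hf.1.const_mul D, fun ω => mul_nonneg hD (hf.2 ω), mul_nonneg hD hf.3, by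
    simp only [ENNReal.ofReal_mul hD, lintegral_const_mul _ hf.1.ennreal_ofReal]
    exact mul_le_mul_right hf.4 _⟩

lemma EB.const (hC : 0 ≤ C) : EB (fun _ => C) C := ⟨measurable_const, fun _ => hC, hC, by simp⟩

lemma EB.mono (hf : EB f C) (h : C ≤ D) : EB f D :=
  ⟨hf.1, hf.2, hf.3.trans h, hf.4.trans (ENNReal.ofReal_le_ofReal h)⟩

lemma EB.sum {ι : Type} (s : Finset ι) {f : ι → ((Fin 2 → ℤ) → unitInterval) → ℝ}
    (hf : ∀ i, EB (f i) C) : EB (fun ω => ∑ i ∈ s, f i ω) (#s * C) := by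
  induction s using Finset.cons_induction with
  | empty => simpa using EB.const le_rfl
  | cons i s hi ih => simpa [add_mul, add_comm] using (hf i).add ih

lemma ae_summable {X : ℕ → ((Fin 2 → ℤ) → unitInterval) → ℝ} {C : ℕ → ℝ} (hX : ∀ k, EB (X k) (C k))
    (hC : Summable C) : ∀ᵐ ω ∂siteMeasure _, Summable fun k => X k ω := by
  have h1 : ∫⁻ ω, ∑' k, ENNReal.ofReal (X k ω) ∂siteMeasure _ ≠ ⊤ := by
    rw [lintegral_tsum fun k => (hX k).1.ennreal_ofReal.aemeasurable]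
    refine ne_top_of_le_ne_top ?_ (ENNReal.tsum_le_tsum fun k => (hX k).4)
    rw [← ENNReal.ofReal_tsum_of_nonneg (fun k => (hX k).3) hC]
    exact ENNReal.ofReal_ne_top
  filter_upwards [ae_lt_top (.tsum fun k => (hX k).1.ennreal_ofReal) h1] with ω hω
  simpa [ENNReal.toReal_ofReal ((hX _).2 ω)] using ENNReal.summable_toReal hω.ne

end

lemma step (hh : 0 < h) (hαβ : α < β) : ∃ K, ∀ η c : ℝ, 0 < η → 0 < c → c ≤ 1 → 2 * c ≤ β - α →
    η ≤ c ^ 4 → (∀ r : ℕ, 0 < r → EB (T 1 h η α β (box r)) ((η * r ^ 2)⁻¹ * c ^ 4)) →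
    (∀ r : ℕ, 0 < r → EB (T 1 h (η / 2) α β (box r)) ((η / 2 * r ^ 2)⁻¹ * c ^ 4)) →
    ∃ X, EB X (K * c) ∧ ∀ R ω, T 1 h (η / 2) α β R ω ≤ T 1 h η α β R ω + X ω := by
  set ρ := Real.pi / (2 * h)
  have hρ : 0 < ρ := by have := Real.pi_pos; positivity
  refine ⟨3 + 6 * Real.pi + 4 * ρ + 30000 * (β - α) ^ 2 * ρ ^ 2, fun η c hη hc c1 c2 c3 h1 h2 => ?_⟩
  have c4 : η ≤ c ^ 3 := c3.trans (pow_le_pow_of_le_one hc.le c1 (by norm_num))
  have c5 : η ≤ c := c3.trans (pow_le_of_le_one hc.le c1 (by norm_num))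
  set N := ⌈c / η⌉₊
  have hN : c / η ≤ N := Nat.le_ceil _
  have hN0 : (0 : ℝ) < N := (div_pos hc hη).trans_le hN
  have hN1 : N * η ≤ 2 * c := by
    have := (Nat.ceil_lt_add_one (div_pos hc hη).le).le
    rw [div_add_one hη.ne', le_div_iff₀ hη] at this
    linarith
  set r := ⌈√(c ^ 3 / η)⌉₊
  have hs : 1 ≤ √(c ^ 3 / η) := Real.one_le_sqrt.2 ((one_le_div hη).2 c4)
  have hr : c ^ 3 ≤ η * r ^ 2 := by
    have := pow_le_pow_left₀ (by positivity) (Nat.le_ceil √(c ^ 3 / η)) 2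
    rwa [Real.sq_sqrt (by positivity), div_le_iff₀' hη] at this
  have hr0 : 0 < r := Nat.ceil_pos.2 (by linarith)
  have hB : (#(box r) : ℝ) ≤ 25 * (c ^ 3 / η) := by
    have h3 : (#(box r) : ℝ) = (2 * r + 1) ^ 2 := by
      have : (r + 1 + r : ℤ).toNat = 2 * r + 1 := by omega
      simp [box, this]
    have := (Nat.ceil_lt_add_one (Real.sqrt_nonneg (c ^ 3 / η))).le
    rw [h3, ← Real.sq_sqrt (by positivity : 0 ≤ c ^ 3 / η)]
    nlinarith
  set w := (β - α) / N with hw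
  have hw1 : η ≤ w := by rw [le_div_iff₀ hN0]; linarith
  have hw0 := hη.trans_le hw1
  have hβ : β = α + N * w := by rw [hw]; field_simp; ring
  have hW : ∀ a, EB (fun ω => (g 1 h a η ω 0 0).im) ρ := fun a =>
    ⟨(continuous_im.comp (cont_g' hη 0 0)).measurable, fun _ => (im_g_pos hη 0).le, hρ.le,
      wegner hh hη 0⟩
  have hM : ∀ a x, EB (fun ω => dt 1 h a w ω 0 x) (ρ ^ 2) := fun a x =>
    ⟨(cont_dt hw0 0 x).measurable, fun _ => dt_nonneg hw0 0 x, by positivity, minami hh hw0 0 x⟩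
  refine ⟨_, ((((h1 r hr0).add (h2 r hr0)).add (EB.const (C := 6 * Real.pi * c) (by positivity))).add
    (EB.sum (range N) fun j => (((hW (α + j * w)).add (hW (α + j * w + w))).mul hη.le).add
      ((EB.sum (box r) (hM (α + j * w))).mul (D := 600 * (1 + c⁻¹) * w ^ 2)
        (by positivity)))).mono ?_, fun R ω => by
      rw [hβ]; exact T_half hη hw1 hc c1 α N R (box r)⟩
  have k1 : (η * r ^ 2)⁻¹ * c ^ 4 ≤ c := by rw [inv_mul_le_iff₀ (by positivity)]; nlinarith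
  have k2 : (η / 2 * r ^ 2)⁻¹ * c ^ 4 ≤ 2 * c := by rw [inv_mul_le_iff₀ (by positivity)]; nlinarith
  have k3 : N * ((1 + c⁻¹) * w ^ 2 * #(box r)) ≤ 50 * (β - α) ^ 2 * c := by
    have : 1 + c⁻¹ ≤ 2 * c⁻¹ := by linarith [one_le_inv₀ hc |>.2 c1]
    calc _ ≤ N * (2 * c⁻¹ * w ^ 2 * (25 * (c ^ 3 / η))) := mul_le_mul_of_nonneg_left (mul_le_mul
          (mul_le_mul_of_nonneg_right this (sq_nonneg w)) hB (Nat.cast_nonneg _) (by positivity)) hN0.le
      _ = 50 * (β - α) ^ 2 * c * (c / η / N) := by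
        generalize N = N at hw hN0; rw [hw]; field_simp; ring
      _ ≤ _ := mul_le_of_le_one_right (by positivity) ((div_le_one hN0).2 hN)
  rw [card_range]
  nlinarith [mul_le_mul_of_nonneg_left k3 (sq_nonneg ρ), mul_le_mul_of_nonneg_left hN1 hρ.le]

lemma tendsto_T (hη : 0 < η) :
    Tendsto (fun R => T 1 h η α β (box R) ω) atTop (𝓝 0) := by
  have h1 := cont_Pa (τ := 1) (h := h) (ω := ω) hη (dl 0)
  have := intervalIntegral.tendsto_integral_filter_of_dominated_convergence (μ := volume) (a := α)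
    (b := β) (l := atTop) (F := fun R a => η * out (box R) (P (Hm 1 h ω) a η (dl 0)) ^ 2)
    (f := fun _ => 0) (fun a => η * ‖P (Hm 1 h ω) a η (dl 0)‖ ^ 2)
    (Eventually.of_forall fun R => ((((cont_out _).comp h1).pow 2).const_mul η).aestronglyMeasurable)
    (Eventually.of_forall fun R => Eventually.of_forall fun a _ => by
      rw [Real.norm_of_nonneg (by positivity), out_sq]
      exact mul_le_mul_of_nonneg_left (sub_le_self _ (by positivity)) hη.le)
    (Continuous.intervalIntegrable (by fun_prop) _ _)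
    (Eventually.of_forall fun a _ => by simpa using ((tendsto_out _).pow 2).const_mul η)
  rwa [intervalIntegral.integral_zero] at this

theorem ae_tight (hh : 0 < h) (hαβ : α < β) (hQ : QInt h α β) : ∀ᵐ ω ∂siteMeasure (Fin 2 → ℤ),
    ∀ ε > 0, ∃ B, ∀ᶠ k in atTop, T 1 h (2⁻¹ ^ k) α β B ω ≤ ε := by
  obtain ⟨b, hb, hQ⟩ := hQ
  obtain ⟨K, hK⟩ := step hh hαβ
  let c : ℕ → ℝ := fun k => |b k| + |b (k + 1)| + 0.9 ^ k
  have hc : Summable c := (hb.abs.add ((summable_nat_add_iff 1).2 hb.abs)).add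
    (summable_geometric_of_lt_one (by norm_num) (by norm_num))
  have h1 : ∀ (k : ℕ) (c : ℝ), |b k| ≤ c → (∀ n, ∃ F : FinVol n, ∫⁻ a in Set.Ioc α β, ∫⁻ ω, ENNReal.ofReal
      ((2⁻¹ ^ k) ^ 2 * F.mom h ⟨a, 2⁻¹ ^ k⟩ ω) ∂siteMeasure (Fin 2 → ℤ) ≤ ENNReal.ofReal (b k ^ 4)) →
      ∀ r : ℕ, 0 < r → EB (T 1 h (2⁻¹ ^ k) α β (box r)) (((2⁻¹ : ℝ) ^ k * r ^ 2)⁻¹ * c ^ 4) :=
    fun k c hc hq r hr => EB.mono ⟨(cont_T (by positivity) _ _ _).measurable,
      fun _ => T_nonneg (by positivity) hαβ.le _, by positivity,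
      lint_T_le (by positivity) hαβ.le hq hr⟩ (mul_le_mul_of_nonneg_left (by
        rw [← Even.pow_abs (by decide)]; exact pow_le_pow_left₀ (abs_nonneg _) hc 4) (by positivity))
  obtain ⟨k₀, hk₀⟩ := eventually_atTop.1 ((hQ.and ((tendsto_add_atTop_nat 1).eventually hQ)).and
    ((hc.tendsto_atTop_zero.eventually (ge_mem_nhds one_pos)).and
      (hc.tendsto_atTop_zero.eventually (ge_mem_nhds (half_pos (sub_pos.2 hαβ))))))
  have h2 : ∀ k, ∃ X, EB X (K * c (k + k₀)) ∧ ∀ R ω, T 1 h (2⁻¹ ^ (k + k₀ + 1)) α β R ω ≤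
      T 1 h (2⁻¹ ^ (k + k₀)) α β R ω + X ω := fun k => by
    obtain ⟨⟨q1, q2⟩, q3, q4⟩ := hk₀ (k + k₀) le_add_self
    generalize k + k₀ = k at q1 q2 q3 q4
    have e : (2⁻¹ : ℝ) ^ (k + 1) = 2⁻¹ ^ k / 2 := by rw [pow_succ]; ring
    have := abs_nonneg (b k); have := abs_nonneg (b (k + 1))
    have h0 : (0 : ℝ) < 0.9 ^ k := by positivity
    rw [e]
    refine hK _ _ (by positivity) (by positivity) q3 (by linarith) ?_
      (h1 k _ (by simp only [c]; linarith) q1) (e ▸ h1 (k + 1) _ (by simp only [c]; linarith) q2)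
    refine le_trans ?_ (pow_le_pow_left₀ h0.le (by simp only [c]; linarith) 4)
    rw [← pow_mul, mul_comm, pow_mul]
    exact pow_le_pow_left₀ (by norm_num) (by norm_num) k
  choose X hX hX' using h2
  filter_upwards [ae_summable hX (((summable_nat_add_iff k₀).2 hc).mul_left K)] with ω hω ε hε
  obtain ⟨k₁, hk₁⟩ := ((tendsto_sum_nat_add fun k => X k ω).eventually
    (ge_mem_nhds (half_pos hε))).exists
  obtain ⟨R, hR⟩ := ((tendsto_T (h := h) (ω := ω) (η := 2⁻¹ ^ (k₁ + k₀)) (α := α) (β := β)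
    (by positivity)).eventually (ge_mem_nhds (half_pos hε))).exists
  have h3 : ∀ j, T 1 h (2⁻¹ ^ (j + k₁ + k₀)) α β (box R) ω ≤ ε / 2 + ∑ i ∈ range j, X (i + k₁) ω := by
    intro j
    induction j with
    | zero => simpa using hR
    | succ j ih =>
      rw [sum_range_succ, show j + 1 + k₁ + k₀ = j + k₁ + k₀ + 1 by ring]
      linarith [hX' (j + k₁) (box R) ω]
  refine ⟨box R, eventually_atTop.2 ⟨k₁ + k₀, fun k hk => ?_⟩⟩
  obtain ⟨j, rfl⟩ := Nat.exists_eq_add_of_le' hk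
  have := ((summable_nat_add_iff k₁).2 hω).sum_le_tsum (range j) fun i _ => (hX _).2 ω
  rw [← add_assoc]
  linarith [h3 j]

end Crest.Agent.N334.End
end

-- ▼ part N334/End/Main

/-!
# Row 334 (helper52): `QStmt h` implies the statement of S0519 (end game of note 245)
-/

set_option autoImplicit false

open Filter Topology Complex MeasureTheory Function Finset Module.End
open scoped InnerProductSpace ComplexConjugate ENNReal

namespace Crest.Agent.N334.End

open Crest.MathPhysics.Anderson Crest.Agent.N334.Soft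

section
variable {E : Type} [NormedAddCommGroup E] [InnerProductSpace ℂ E] [CompleteSpace E]
  {H : E →L[ℂ] E} {f : E}

omit [CompleteSpace E] in
lemma mem_cont : f ∈ (⨆ μ, eigenspace (H : Module.End ℂ E) μ)ᗮ ↔
    ∀ (μ : ℂ) e, H e = μ • e → ⟪e, f⟫_ℂ = 0 := by
  simp only [← Submodule.iInf_orthogonal, Submodule.mem_iInf, Submodule.mem_orthogonal,
    mem_eigenspace_iff, ContinuousLinearMap.coe_coe]

lemma G_mem (hH : IsSelfAdjoint H) {z : ℂ} (hz : z.im ≠ 0)
    (hf : f ∈ (⨆ μ, eigenspace (H : Module.End ℂ E) μ)ᗮ) :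
    G H z f ∈ (⨆ μ, eigenspace (H : Module.End ℂ E) μ)ᗮ := by
  refine mem_cont.2 fun μ e he => ?_
  have hz' : (conj z).im ≠ 0 := by simpa
  have := inner_G hH hz' e f
  rw [conj_conj] at this
  by_cases h : μ = conj z
  · rw [← G_eq hH hz' (u := 0) (w := e) (by rw [he, h, sub_self]), map_zero, inner_zero_left]
  · rw [← this, G_eq hH hz' (w := (μ - conj z)⁻¹ • e), inner_smul_left, mem_cont.1 hf μ e he, mul_zero]
    rw [map_smul, he, smul_comm (conj z), ← smul_sub, ← sub_smul, inv_smul_smul₀ (sub_ne_zero.2 h)]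

lemma P_mem (hH : IsSelfAdjoint H) {a η : ℝ} (hη : 0 < η)
    (hf : f ∈ (⨆ μ, eigenspace (H : Module.End ℂ E) μ)ᗮ) :
    P H a η f ∈ (⨆ μ, eigenspace (H : Module.End ℂ E) μ)ᗮ :=
  P_eq hH hη f ▸ Submodule.smul_mem _ _ (G_mem hH (by simpa using hη.ne') (G_mem hH hη.ne' hf))

lemma ev_G_le (hH : IsSelfAdjoint H) (hf : f ∈ (⨆ μ, eigenspace (H : Module.End ℂ E) μ)ᗮ)
    (α β : ℝ) {δ : ℝ} (hδ : 0 < δ) :
    ∀ᶠ η in 𝓝 (0 : ℝ), ∀ a ∈ Set.Icc α β, 0 < η → η * ‖G H ⟨a, η⟩ f‖ ≤ δ := by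
  refine isCompact_Icc.eventually_forall_of_forall_eventually fun a₀ _ => ?_
  have h1 : IsSelfAdjoint (H - (a₀ : ℂ) • 1) :=
    hH.sub (IsSelfAdjoint.smul (conj_ofReal a₀) (IsSelfAdjoint.one _))
  have h2 : f ∈ (H - (a₀ : ℂ) • 1).kerᗮ := fun e he => mem_cont.1 hf a₀ e (sub_eq_zero.1 he)
  rw [ContinuousLinearMap.orthogonal_ker, h1.adjoint_eq] at h2
  obtain ⟨_, ⟨w, rfl⟩, hw⟩ := Metric.mem_closure_iff.1 h2 _ (half_pos hδ)
  have h3 : Continuous fun p : ℝ × ℝ => (|p.1| + ‖(p.2 + p.1 * I - a₀ : ℂ)‖) * ‖w‖ := by fun_prop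
  filter_upwards [(h3.tendsto' (0, a₀) 0 (by simp)).eventually (gt_mem_nhds (half_pos hδ))]
    with p hp hη
  have h4 : G H ⟨p.2, p.1⟩ f = G H ⟨p.2, p.1⟩ (f - (H w - (a₀ : ℂ) • w)) +
      (w + (p.2 + p.1 * I - a₀ : ℂ) • G H ⟨p.2, p.1⟩ w) := by
    conv_rhs => rhs; lhs; rw [← G_eq hH (z := ⟨p.2, p.1⟩) hη.ne' (w := w) rfl]
    rw [← map_smul, ← map_add, ← map_add, mk_eq_add_mul_I]
    congr 1; module
  have h5 := fun u => norm_G_le hH (z := ⟨p.2, p.1⟩) hη.ne' u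
  simp only [abs_of_pos hη] at h5 hp
  have h6 := (congrArg norm h4).trans_le ((norm_add_le _ _).trans
    (add_le_add_right (norm_add_le _ _) _))
  rw [norm_smul] at h6
  rw [dist_eq_norm] at hw
  change ‖f - (H w - (a₀ : ℂ) • w)‖ < _ at hw
  nlinarith [mul_le_mul_of_nonneg_left h6 hη.le, h5 (f - (H w - (a₀ : ℂ) • w)),
    mul_le_mul_of_nonneg_left (h5 w) (norm_nonneg (p.2 + p.1 * I - a₀ : ℂ))]

end

variable {h α β : ℝ} {ω : (Fin 2 → ℤ) → unitInterval}

/-- the continuous component of `δ₀` -/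
noncomputable def fc (h : ℝ) (ω : (Fin 2 → ℤ) → unitInterval) : Ell2 2 :=
  (⨆ μ, eigenspace (Hm 1 h ω : Module.End ℂ (Ell2 2)) μ)ᗮ.starProjection (dl 0)

lemma inner_P_fc {a η : ℝ} (hη : 0 < η) :
    (⟪P (Hm 1 h ω) a η (fc h ω), P (Hm 1 h ω) a η (dl 0)⟫_ℂ).re = ‖P (Hm 1 h ω) a η (fc h ω)‖ ^ 2 := by
  have hs : IsSelfAdjoint (P (Hm 1 h ω) a η) := cfc_predicate _ _
  have h1 := Submodule.starProjection_inner_eq_zero (dl 0) _ (P_mem (a := a) Hm_sa hη
    (P_mem (a := a) Hm_sa hη (Submodule.starProjection_apply_mem _ (dl 0)) : _ ∈ (⨆ μ,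
      eigenspace (Hm 1 h ω : Module.End ℂ (Ell2 2)) μ)ᗮ))
  have h2 : ∀ u w, ⟪u, P (Hm 1 h ω) a η w⟫_ℂ = ⟪P (Hm 1 h ω) a η u, w⟫_ℂ :=
    fun u w => (hs.isSymmetric u w).symm
  rw [h2, map_sub, inner_sub_left, sub_eq_zero, ← fc] at h1
  rw [← inner_conj_symm, conj_re, h1]
  exact inner_self_eq_norm_sq (𝕜 := ℂ) _

lemma norm_sq_le {d : ℕ} {x y : Ell2 d} (h : (⟪x, y⟫_ℂ).re = ‖x‖ ^ 2) (B : Finset (Fin d → ℤ)) {ε : ℝ}
    (hε : 0 < ε) : ‖x‖ ^ 2 ≤ ε⁻¹ * ∑ z ∈ B, ‖x z‖ ^ 2 + ε * ‖y‖ ^ 2 + out B y ^ 2 := by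
  have h1 : (⟪x, y - fs B y⟫_ℂ).re ≤ ‖x‖ * out B y := (re_le_norm _).trans (norm_inner_le_norm _ _)
  have h2 : 2 * (⟪x, fs B y⟫_ℂ).re ≤ ε⁻¹ * ∑ z ∈ B, ‖x z‖ ^ 2 + ε * ∑ z ∈ B, ‖y z‖ ^ 2 := by
    simp only [fs, inner_sum, re_sum, mul_sum, ← sum_add_distrib, lp.inner_single_right]
    refine sum_le_sum fun z _ => ?_
    have h3 : (⟪x z, y z⟫_ℂ).re ≤ ‖x z‖ * ‖y z‖ := (re_le_norm _).trans (norm_inner_le_norm _ _)
    have h4 : 0 ≤ ε⁻¹ * (‖x z‖ - ε * ‖y z‖) ^ 2 := by positivity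
    have h5 : ε⁻¹ * (‖x z‖ - ε * ‖y z‖) ^ 2 =
      ε⁻¹ * ‖x z‖ ^ 2 - 2 * (‖x z‖ * ‖y z‖) + ε * ‖y z‖ ^ 2 := by field_simp; ring
    linarith
  have h3 := mul_nonneg hε.le ((sq_nonneg _).trans_eq (out_sq B y))
  rw [inner_sub_right, sub_re, h] at h1
  nlinarith [sq_nonneg (‖x‖ - out B y)]

lemma tendsto_fc (hαβ : α ≤ β) (hT : ∀ ε > 0, ∃ B, ∀ᶠ k in atTop, T 1 h (2⁻¹ ^ k) α β B ω ≤ ε) :
    Tendsto (fun k : ℕ => ∫ a in α..β, 2⁻¹ ^ k * ‖P (Hm 1 h ω) a (2⁻¹ ^ k) (fc h ω)‖ ^ 2) atTop (𝓝 0) := by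
  refine tendsto_order.2 ⟨fun c hc => Eventually.of_forall fun k => hc.trans_le
    (intervalIntegral.integral_nonneg hαβ fun a _ => by positivity), fun c hc => ?_⟩
  set ε := c / 10
  have hε : 0 < ε := by positivity
  obtain ⟨B, hB⟩ := hT ε hε
  filter_upwards [hB, (tendsto_pow_atTop_nhds_zero_of_lt_one (r := (2⁻¹ : ℝ)) (by norm_num)
    (by norm_num)).eventually (ev_G_le (H := Hm 1 h ω) (f := fc h ω) Hm_sa
      (Submodule.starProjection_apply_mem _ (dl 0)) α β (δ := ε / (#B + 1)) (by positivity))] with k h1 h2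
  have hη : (0 : ℝ) < 2⁻¹ ^ k := by positivity
  generalize (2⁻¹ : ℝ) ^ k = η at h1 h2 hη
  have c1 := cont_Pa (τ := 1) (h := h) (ω := ω) hη (fc h ω)
  have c2 := cont_Pa (τ := 1) (h := h) (ω := ω) hη (dl 0)
  have c3 := fun z => cont_ga (τ := 1) (h := h) (ω := ω) hη z z
  have c4 := cont_out B
  have h3 : ∀ z, ∫ a in α..β, (g 1 h a η ω z z).im ≤ Real.pi := fun z => by
    simp only [← qf_dl hη]
    rw [qf_int Hm_sa _ (cont_pk2 hη)]
    exact (qf_mono _ (intervalIntegral.continuous_parametric_intervalIntegral_of_continuous'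
      (f := fun l a => pk η (l - a)) ((continuous_pk hη).comp (continuous_fst.sub continuous_snd))
      _ _) continuous_const fun l _ => int_pk_le hη l α β).trans_eq (by simp [qf_const Hm_sa])
  refine (intervalIntegral.integral_mono_on hαβ (Continuous.intervalIntegrable (by fun_prop) _ _)
    (g := fun a => ε / (#B + 1) * ∑ z ∈ B, (g 1 h a η ω z z).im + ε * (η *
      ‖P (Hm 1 h ω) a η (dl 0)‖ ^ 2) + η * out B (P (Hm 1 h ω) a η (dl 0)) ^ 2)
    (Continuous.intervalIntegrable (by fun_prop) _ _) fun a ha => ?_).trans_lt ?_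
  · refine (mul_le_mul_of_nonneg_left (norm_sq_le (inner_P_fc hη) B hε) hη.le).trans ?_
    rw [mul_add, mul_add, mul_left_comm η ε, add_le_add_iff_right, add_le_add_iff_right, mul_sum,
      mul_sum, mul_sum]
    refine sum_le_sum fun z _ => ?_
    have h4 := norm_inner_P_sq (H := Hm 1 h ω) (a := a) Hm_sa hη (dl z) (fc h ω)
    rw [inner_dl, qf_dl hη, qf_pk Hm_sa hη] at h4
    have h5 := pow_le_pow_left₀ (by positivity) (h2 a ha hη) 2
    have h6 : (ε / (#B + 1)) ^ 2 ≤ ε * (ε / (#B + 1)) := by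
      rw [sq]; gcongr; exact div_le_self hε.le (by simp)
    rw [mul_left_comm, inv_mul_le_iff₀ hε]
    nlinarith [mul_le_mul_of_nonneg_left h4 hη.le, mul_le_mul_of_nonneg_left (h5.trans h6)
      (im_g_pos (τ := 1) (h := h) (a := a) (ω := ω) hη z).le]
  · rw [intervalIntegral.integral_add (Continuous.intervalIntegrable (by fun_prop) _ _)
      (Continuous.intervalIntegrable (by fun_prop) _ _), intervalIntegral.integral_add
      (Continuous.intervalIntegrable (by fun_prop) _ _)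
      (Continuous.intervalIntegrable (by fun_prop) _ _), intervalIntegral.integral_const_mul,
      intervalIntegral.integral_const_mul, intervalIntegral.integral_finsetSum fun z _ =>
        Continuous.intervalIntegrable (by fun_prop) _ _, ← mm, ← T]
    have h4 := sum_le_card_nsmul B _ _ fun z _ => h3 z
    have h5 : ε / (#B + 1) * (#B • Real.pi) ≤ ε * Real.pi := by
      rw [nsmul_eq_mul, ← mul_assoc, div_mul_eq_mul_div, mul_div_assoc]
      exact mul_le_mul_of_nonneg_right (mul_le_of_le_one_right hε.le ((div_le_one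
        (by positivity)).2 (le_add_of_nonneg_right zero_le_one))) Real.pi_pos.le
    have h6 : c = 10 * ε := by simp only [ε]; ring
    nlinarith [mul_le_mul_of_nonneg_left h4 (div_nonneg hε.le B.card.cast_add_one_pos.le), Real.pi_le_four,
      mul_le_mul_of_nonneg_left (mm_le (τ := 1) (h := h) (ω := ω) hη hαβ) hε.le]

lemma fc_le (hh : 0 < h) {ι : Type} [Fintype ι] {α β : ι → ℝ} (hαβ : ∀ i, α i ≤ β i)
    (hT : ∀ i, ∀ ε > 0, ∃ B, ∀ᶠ k in atTop, T 1 h (2⁻¹ ^ k) (α i) (β i) B ω ≤ ε) :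
    ENNReal.ofReal (1 / 4 * ‖fc h ω‖ ^ 2) ≤ liminf (fun k : ℕ => ∫⁻ a in Set.Icc (-(4 + h)) (4 + h) \
      ⋃ i, Set.Ioc (α i) (β i), ENNReal.ofReal (g 1 h a (2⁻¹ ^ k) ω 0 0).im) atTop := by
  have h1 := ENNReal.Tendsto.sub (tendsto_const_nhds (x := ENNReal.ofReal (1 / 4 * ‖fc h ω‖ ^ 2)))
    (tendsto_finsetSum univ fun i _ => ENNReal.tendsto_ofReal (tendsto_fc (hαβ i) (hT i)))
    (Or.inl ENNReal.ofReal_ne_top)
  simp only [ENNReal.ofReal_zero, sum_const_zero, tsub_zero] at h1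
  refine h1.liminf_eq.symm.trans_le (liminf_le_liminf (Eventually.of_forall fun k => ?_))
  have hη : (0 : ℝ) < 2⁻¹ ^ k := by positivity
  have hη1 : (2⁻¹ : ℝ) ^ k ≤ 4 + h := (pow_le_one₀ (by norm_num) (by norm_num)).trans (by linarith)
  generalize (2⁻¹ : ℝ) ^ k = η at hη hη1
  have h2 : ∀ α β, α ≤ β → ENNReal.ofReal (∫ a in α..β, η * ‖P (Hm 1 h ω) a η (fc h ω)‖ ^ 2) =
      ∫⁻ a in Set.Ioc α β, ENNReal.ofReal (η * ‖P (Hm 1 h ω) a η (fc h ω)‖ ^ 2) := fun α β h => by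
    rw [intervalIntegral.integral_of_le h]
    exact ofReal_integral_eq_lintegral_ofReal (((cont_Pa hη _).norm.pow 2).const_mul
      η).integrableOn_Ioc (Eventually.of_forall fun a => by positivity)
  have h3 : 1 / 4 * ‖fc h ω‖ ^ 2 ≤ ∫ a in -(4 + h)..4 + h, η * ‖P (Hm 1 h ω) a η (fc h ω)‖ ^ 2 := by
    simp only [norm_P_sq Hm_sa hη]
    rw [qf_int Hm_sa _ (k := fun a l => η * pk η (l - a) ^ 2)
      (by exact ((cont_pk2 hη).pow 2).const_mul η), ← qf_const (H := Hm 1 h ω) Hm_sa]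
    exact qf_mono _ continuous_const (cont_kap hη _ _) fun l hl =>
      kap_ge hη hη1 (hl.trans (norm_H_le hh ω))
  rw [tsub_le_iff_left]
  simp only [h2 _ _ (hαβ _)]
  refine (ENNReal.ofReal_le_ofReal h3).trans ((h2 _ _ (by linarith)).trans_le ((lintegral_mono_set
    (Set.Ioc_subset_Icc_self.trans (le_sup_sdiff (a := ⋃ i, Set.Ioc (α i) (β i))))).trans
    ((lintegral_union_le _ _ _).trans (add_le_add ((lintegral_iUnion_le _ _).trans_eq
      (tsum_fintype _)) (lintegral_mono fun a => ENNReal.ofReal_le_ofReal ?_)))))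
  have h4 := (inner_P_fc (h := h) (ω := ω) (a := a) hη).symm.trans_le
    ((re_le_norm _).trans (norm_inner_le_norm _ _))
  have h5 : η * ‖P (Hm 1 h ω) a η (dl 0)‖ ^ 2 ≤ (g 1 h a η ω 0 0).im := by
    rw [norm_P_sq Hm_sa hη, ← qf_dl hη]
    exact qf_mono _ (((cont_pk hη a).pow 2).const_mul η) (cont_pk hη a) fun l _ => by
      nlinarith [mul_pk_le hη (l - a), pk_nonneg hη.le (l - a)]
  refine le_trans (mul_le_mul_of_nonneg_left ?_ hη.le) h5
  nlinarith [sq_nonneg (‖P (Hm 1 h ω) a η (fc h ω)‖ - ‖P (Hm 1 h ω) a η (dl 0)‖)]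

theorem ae_fc (hh : 0 < h) (hQ : QStmt h) : ∀ᵐ ω ∂siteMeasure (Fin 2 → ℤ), fc h ω = 0 := by
  have key : ∀ ε : ℝ≥0∞, ε ≠ 0 → ∃ Z : ((Fin 2 → ℤ) → unitInterval) → ℝ≥0∞, Measurable Z ∧
      ∫⁻ ω, Z ω ∂siteMeasure _ ≤ ENNReal.ofReal (Real.pi / (2 * h)) * ε ∧
      ∀ᵐ ω ∂siteMeasure _, ENNReal.ofReal (1 / 4 * ‖fc h ω‖ ^ 2) ≤ Z ω := fun ε hε => by
    let ι := {p : ℝ × ℝ // p.1 < p.2 ∧ QInt h p.1 p.2}
    have hU : IsOpen (⋃ p : ι, Set.Ioo p.1.1 p.1.2) := isOpen_iUnion fun _ => isOpen_Ioo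
    obtain ⟨K, hK, hK', hK''⟩ := (measurableSet_Icc (a := -(4 + h)) (b := 4 + h)).inter
      hU.measurableSet |>.exists_isCompact_sdiff_lt (μ := volume)
      (ne_top_of_le_ne_top measure_Icc_lt_top.ne (measure_mono Set.inter_subset_left)) hε
    obtain ⟨s, hs⟩ := hK'.elim_finite_subcover _ (fun p : ι => isOpen_Ioo)
      (hK.trans Set.inter_subset_right)
    set A := Set.Icc (-(4 + h)) (4 + h) \ ⋃ p : s, Set.Ioc p.1.1.1 p.1.1.2
    have hA : volume A ≤ ε := le_trans (measure_mono_ae (hQ.mono fun E hE h1 => by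
      obtain ⟨α, β, h2, h3, h4⟩ := hE (abs_le.2 h1.1)
      refine ⟨⟨h1.1, Set.mem_iUnion.2 ⟨⟨(α, β), h2.trans h3, h4⟩, h2, h3⟩⟩, fun h5 => h1.2 ?_⟩
      obtain ⟨p, hp, h6⟩ := Set.mem_iUnion₂.1 (hs h5)
      exact Set.mem_iUnion.2 ⟨⟨p, hp⟩, h6.1, h6.2.le⟩)) hK''.le
    have hm : ∀ k : ℕ, Measurable fun p : ((Fin 2 → ℤ) → unitInterval) × ℝ =>
        ENNReal.ofReal (g 1 h p.2 (2⁻¹ ^ k) p.1 0 0).im := fun k =>
      (continuous_im.comp (cont_g (by positivity) 0 0)).measurable.ennreal_ofReal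
    have hm' := fun k => (hm k).lintegral_prod_right' (ν := volume.restrict A)
    refine ⟨_, Measurable.liminf hm', (lintegral_liminf_le hm').trans
      (liminf_le_of_frequently_le' (Frequently.of_forall fun k => ?_)), ?_⟩
    · rw [lintegral_lintegral_swap (hm k).aemeasurable]
      refine (lintegral_mono fun a => wegner hh (by positivity) 0).trans ?_
      rw [setLIntegral_const]
      exact mul_le_mul_right hA _
    · filter_upwards [ae_all_iff.2 fun p : s => ae_tight hh p.1.2.1 p.1.2.2] with ω hω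
      exact fc_le hh (fun p : s => p.1.2.1.le) hω
  choose Z h1 h2 h3 using fun m : ℕ => key (m : ℝ≥0∞)⁻¹ (by simp)
  have h4 : ∫⁻ ω, ⨅ m, Z m ω ∂siteMeasure _ = 0 := by
    have := ENNReal.Tendsto.const_mul (a := ENNReal.ofReal (Real.pi / (2 * h)))
      ENNReal.tendsto_inv_nat_nhds_zero (Or.inr ENNReal.ofReal_ne_top)
    rw [mul_zero] at this
    exact le_antisymm (ge_of_tendsto' this fun m =>
      (lintegral_mono fun ω => iInf_le _ m).trans (h2 m)) zero_le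
  filter_upwards [(lintegral_eq_zero_iff (Measurable.iInf h1)).1 h4, ae_all_iff.2 h3] with ω h5 h6
  have := (le_iInf h6).trans_eq h5
  rw [Pi.zero_apply, nonpos_iff_eq_zero, ENNReal.ofReal_eq_zero] at this
  exact norm_eq_zero.1 (pow_eq_zero_iff two_ne_zero |>.1 (by linarith [sq_nonneg ‖fc h ω‖]))

/-- **End game of S0519.** -/
theorem s0519_of_Q (hh : 0 < h) (hQ : QStmt h) :
    ∀ᵐ ω ∂(siteMeasure (Fin 2 → ℤ)),
      (∃ (ι : Type) (b : HilbertBasis ι ℂ (lp (fun _ : Fin 2 → ℤ => ℂ) 2)),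
        ∀ i, ∃ E : ℝ,
          applyOp 2 1 (fun x => h * centredPotential ω x) (b i) = (E : ℂ) • ⇑(b i)) ∧
      closure {E : ℝ | ∃ u : lp (fun _ : Fin 2 → ℤ => ℂ) 2, u ≠ 0 ∧
          applyOp 2 1 (fun x => h * centredPotential ω x) u = (E : ℂ) • ⇑u} =
        Set.Icc (-4 - h) (4 + h) := by
  refine s0519_of_basis hh ?_
  have h1 : ∀ x, ∀ᵐ ω ∂siteMeasure (Fin 2 → ℤ), fc h (fun y => ω (y + x)) = 0 := fun x => by
    have h1 : (siteMeasure (Fin 2 → ℤ)).map (fun ω y => ω (y + x)) = siteMeasure (Fin 2 → ℤ) :=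
      Measure.map_infinitePi_infinitePi_of_inj (P := fun _ => (volume : Measure unitInterval))
        (add_left_injective x)
    have h2 := ae_fc hh hQ
    rw [← h1] at h2
    exact ae_of_ae_map (Measurable.aemeasurable (by fun_prop)) h2
  filter_upwards [ae_all_iff.2 h1] with ω hω
  refine exists_eigenbasis (X := Hm 1 h ω) Hm_sa.isSymmetric ((Submodule.eq_bot_iff _).2 fun u hu =>
    lp.ext (funext fun x => ?_))
  have h2 := Submodule.starProjection_inner_eq_zero (dl 0) (translate 2 x u)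
    (mem_cont (H := Hm 1 h fun y => ω (y + x)).2 fun μ e he => by
      rw [← neg_neg x, ← inner_translate]
      refine mem_cont.1 hu μ _ ?_
      rw [← map_smul, ← he]
      ext y
      simp only [translate_apply, latticeOp_apply, applyOp, pot_apply, centredPotential,
        neg_add_cancel_right, sub_eq_add_neg]
      simp only [add_right_comm y (-x)])
  rw [← fc, hω x, sub_zero, inner_dl, translate_apply, zero_add] at h2
  exact h2

end Crest.Agent.N334.End
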